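import Mathlib.MeasureTheory.Integral.Average
import Vale.Agent.P248.H432.Defs

/-! P248: Santaló points (definition). -/

open MeasureTheory

namespace Vale.Agent.P248.H432.V5

/-- `0` is the Santaló point of `U`: it is an interior point, and the centroid of the polar body
`{y : ⟨y, x⟩ ≤ 1 for all x ∈ U}` is `0`. -/
def IsSantalo {n : ℕ} (U : Set (E n)) : Prop :=
  (0 : E n) ∈ interior U ∧ ⨍ x in polarAt U 0, x = 0

end Vale.Agent.P248.H432.V5
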