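import Vale.Agent.P248.H432.V5.LSpec

/-! P248: bodies fibred over a line: the set `CC e H D` is a convex body. -/

open MeasureTheory Set

namespace Vale.Agent.P248.H432.V5

open Vale.Agent.P254.H242 (yp xp sp HG)

variable {n q p : ℕ}

theorem cc_eq_image (e : Fin n ≃ Fin q ⊕ Fin p) (H : Set ((Fin q → ℝ) × ℝ))
    (D : Set (Fin p → ℝ)) :
    CC e H D = (fun t : ((Fin q → ℝ) × ℝ) × (Fin p → ℝ) => sp e (t.1.1, t.1.2 • t.2)) ''
      (H ×ˢ D) := by
  ext u
  constructor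
  · rintro ⟨r, hr, w, hw, h⟩
    refine ⟨((yp e u, r), w), ⟨hr, hw⟩, ?_⟩
    show sp e (yp e u, r • w) = u
    rw [← h, Vale.Agent.P254.H242.sp_yx]
  · rintro ⟨⟨⟨y, r⟩, w⟩, ⟨hr, hw⟩, rfl⟩
    refine ⟨r, ?_, w, hw, ?_⟩
    · simpa only [Vale.Agent.P254.H242.yp_sp] using hr
    · simp only [Vale.Agent.P254.H242.xp_sp]

theorem cc_compact (e : Fin n ≃ Fin q ⊕ Fin p) {H : Set ((Fin q → ℝ) × ℝ)} (hH : HG H)
    {D : Set (Fin p → ℝ)} (hD : IsCompact D) : IsCompact (CC e H D) := by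
  rw [cc_eq_image]
  refine (hH.cpt.prod hD).image ?_
  refine (Vale.Agent.P254.H242.cont_sp e).comp ?_
  fun_prop

theorem cc_convex (e : Fin n ≃ Fin q ⊕ Fin p) {H : Set ((Fin q → ℝ) × ℝ)} (hH : HG H)
    {D : Set (Fin p → ℝ)} (hc : Convex ℝ D) : Convex ℝ (CC e H D) := by
  rintro u ⟨r, hr, w, hw, h⟩ v ⟨s, hs, x, hx, h'⟩ a b ha hb hab
  have hr0 := hH.nn _ _ hr
  have hs0 := hH.nn _ _ hs
  have h1 := hH.conv hr hs ha hb hab
  have h2 : (yp e (a • u + b • v), a * r + b * s) ∈ H := h1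
  have h3 : xp e (a • u + b • v) = a • (r • w) + b • (s • x) := by
    rw [← h, ← h']
    rfl
  refine ⟨a * r + b * s, h2, ?_⟩
  have har : 0 ≤ a * r := mul_nonneg ha hr0
  have hbs : 0 ≤ b * s := mul_nonneg hb hs0
  rcases eq_or_lt_of_le (add_nonneg har hbs) with h0 | h0
  · have h4 : a * r = 0 := by linarith
    have h5 : b * s = 0 := by linarith
    refine ⟨w, hw, ?_⟩
    rw [h3, smul_smul, smul_smul, h4, h5]
    simp
  · refine ⟨(a * r / (a * r + b * s)) • w + (b * s / (a * r + b * s)) • x,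
      hc hw hx (div_nonneg har h0.le) (div_nonneg hbs h0.le) ?_, ?_⟩
    · rw [← add_div, div_self h0.ne']
    · rw [h3, smul_add, smul_smul, smul_smul, smul_smul, smul_smul, mul_div_cancel₀ _ h0.ne',
        mul_div_cancel₀ _ h0.ne']

theorem cc_interior (e : Fin n ≃ Fin q ⊕ Fin p) {H : Set ((Fin q → ℝ) × ℝ)} (hH : HG H)
    (hHi : (interior H).Nonempty) {D : Set (Fin p → ℝ)} (hi : (interior D).Nonempty) :
    (interior (CC e H D)).Nonempty := by
  obtain ⟨⟨y, r⟩, hyr⟩ := hHi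
  obtain ⟨w, hw⟩ := hi
  have hr : 0 < r := by
    have h1 : Filter.Tendsto (fun s : ℝ => (y, s)) (nhds r) (nhds (y, r)) :=
      (by fun_prop : Continuous fun s : ℝ => (y, s)).tendsto r
    have h2 : ∀ᶠ s in nhds r, (y, s) ∈ H := h1 (mem_interior_iff_mem_nhds.1 hyr)
    have h3 : ∀ᶠ s in nhds r, 0 ≤ s := h2.mono fun s hs => hH.nn _ _ hs
    obtain ⟨ε, hε, h4⟩ := Metric.eventually_nhds_iff.1 h3
    have h5 := h4 (y := r - ε / 2) (by
      rw [Real.dist_eq, abs_lt]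
      constructor <;> linarith)
    linarith
  refine ⟨sp e (y, r • w), ?_⟩
  have hopen : IsOpen ((fun u => (yp e u, r)) ⁻¹' interior H ∩
      (fun u => r⁻¹ • xp e u) ⁻¹' interior D) := by
    have h1 := Vale.Agent.P254.H242.cont_yp e
    have h2 := Vale.Agent.P254.H242.cont_xp e
    exact (isOpen_interior.preimage (by fun_prop)).inter (isOpen_interior.preimage (by fun_prop))
  refine mem_interior.2 ⟨_, ?_, hopen, ?_, ?_⟩
  · rintro u ⟨h1, h2⟩
    refine ⟨r, interior_subset h1, r⁻¹ • xp e u, interior_subset h2, ?_⟩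
    rw [smul_smul, mul_inv_cancel₀ hr.ne', one_smul]
  · show (yp e (sp e (y, r • w)), r) ∈ interior H
    rw [Vale.Agent.P254.H242.yp_sp]
    exact hyr
  · show r⁻¹ • xp e (sp e (y, r • w)) ∈ interior D
    rw [Vale.Agent.P254.H242.xp_sp]
    show r⁻¹ • (r • w) ∈ interior D
    rw [smul_smul, inv_mul_cancel₀ hr.ne', one_smul]
    exact hw

theorem cc_body (e : Fin n ≃ Fin q ⊕ Fin p) {H : Set ((Fin q → ℝ) × ℝ)} (hH : HG H)
    (hHi : (interior H).Nonempty) {D : Set (Fin p → ℝ)} (hD : IsCompact D) (hc : Convex ℝ D)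
    (hi : (interior D).Nonempty) : IsConvexBody (EE (CC e H D)) := by
  refine body_of_CB (p := 0) (b := sb n) ?_
  have h : frame 0 (sb n) ⁻¹' (EE (CC e H D)) = CC e H D := by
    ext u
    rw [Vale.Agent.P248.H917.mem_frame_sb]
    rfl
  rw [h]
  exact ⟨cc_compact e hH hD, cc_convex e hH hc, cc_interior e hH hHi hi⟩

end Vale.Agent.P248.H432.V5
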