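import Vale.Agent.P248.H432.V5.LSpec

/-! P248: bodies fibred over a line are fibre sums. -/

open MeasureTheory Set

namespace Vale.Agent.P248.H432.V5

open Vale.Agent.P254.H242 (yp xp sp HG)

variable {n q p : ℕ}

/-- the direction of the sum -/
noncomputable def dirv (e : Fin n ≃ Fin q ⊕ Fin p) (d : Fin p → ℝ) : E n :=
  WithLp.toLp 2 (sp e (0, d))

theorem yp_dirv (e : Fin n ≃ Fin q ⊕ Fin p) (d : Fin p → ℝ) (x : E n) (r : ℝ) :
    yp e (WithLp.ofLp (x + r • dirv e d)) = yp e (WithLp.ofLp x) := by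
  funext j
  have h : (sp e (0, d)) (e.symm (Sum.inl j)) = 0 := by
    rw [Vale.Agent.P254.H242.sp_inl]; rfl
  show (WithLp.ofLp x) (e.symm (Sum.inl j)) + r * (sp e (0, d)) (e.symm (Sum.inl j)) =
    (WithLp.ofLp x) (e.symm (Sum.inl j))
  rw [h, mul_zero, add_zero]

theorem xp_dirv (e : Fin n ≃ Fin q ⊕ Fin p) (d : Fin p → ℝ) (x : E n) (r : ℝ) :
    xp e (WithLp.ofLp (x + r • dirv e d)) = xp e (WithLp.ofLp x) + r • d := by
  funext j
  have h : (sp e (0, d)) (e.symm (Sum.inr j)) = d j := by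
    rw [Vale.Agent.P254.H242.sp_inr]
  show (WithLp.ofLp x) (e.symm (Sum.inr j)) + r * (sp e (0, d)) (e.symm (Sum.inr j)) =
    (WithLp.ofLp x) (e.symm (Sum.inr j)) + r * d j
  rw [h]

theorem cc_sum (e : Fin n ≃ Fin q ⊕ Fin p) {H : Set ((Fin q → ℝ) × ℝ)} (hH : HG H)
    {D : Set (Fin p → ℝ)} (hc : Convex ℝ D) {d : Fin p → ℝ} (hd : d ≠ 0) (h1 : d ∈ D)
    (h2 : -d ∈ D) : IsFibreSum (EE (CC e H D)) (EE (CC e H {x | x + d ∈ D}))
      (EE (CC e H {x | x - d ∈ D})) := by
  refine ⟨dirv e d, ?_, ?_, ?_, ?_⟩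
  · intro h
    apply hd
    have h3 := xp_dirv e d 0 1
    rw [h] at h3
    have h4 : xp e (WithLp.ofLp (0 + (1 : ℝ) • (0 : E n))) = 0 := by
      rw [smul_zero, add_zero]; rfl
    have h5 : xp e (WithLp.ofLp (0 : E n)) = 0 := rfl
    rw [h4, h5, zero_add, one_smul] at h3
    exact h3.symm
  · rintro x ⟨r, hr, w, hw, hx⟩
    refine ⟨2 * r, r, ?_, w + (2 : ℝ) • d, ?_, ?_⟩
    · show (yp e (WithLp.ofLp (x + (2 * r) • dirv e d)), r) ∈ H
      rw [yp_dirv]; exact hr
    · show w + (2 : ℝ) • d - d ∈ D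
      have h3 : w + (2 : ℝ) • d - d = w + d := by rw [two_smul]; abel
      rw [h3]; exact hw
    · show xp e (WithLp.ofLp (x + (2 * r) • dirv e d)) = r • (w + (2 : ℝ) • d)
      rw [xp_dirv, hx, smul_add, smul_smul, mul_comm]
  · rintro x ⟨r, hr, w, hw, hx⟩
    refine ⟨-(2 * r), r, ?_, w - (2 : ℝ) • d, ?_, ?_⟩
    · show (yp e (WithLp.ofLp (x + (-(2 * r)) • dirv e d)), r) ∈ H
      rw [yp_dirv]; exact hr
    · show w - (2 : ℝ) • d + d ∈ D
      have h3 : w - (2 : ℝ) • d + d = w - d := by rw [two_smul]; abel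
      rw [h3]; exact hw
    · show xp e (WithLp.ofLp (x + (-(2 * r)) • dirv e d)) = r • (w - (2 : ℝ) • d)
      rw [xp_dirv, hx, smul_sub, smul_smul, neg_smul, mul_comm]
      abel
  · ext x
    constructor
    · rintro ⟨r, hr, w, hw, hx⟩
      refine ⟨-r, ⟨r, ?_, w - d, ?_, ?_⟩, ⟨r, ?_, w + d, ?_, ?_⟩⟩
      · show (yp e (WithLp.ofLp (x + (-r) • dirv e d)), r) ∈ H
        rw [yp_dirv]; exact hr
      · show w - d + d ∈ D
        rw [sub_add_cancel]; exact hw
      · show xp e (WithLp.ofLp (x + (-r) • dirv e d)) = r • (w - d)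
        rw [xp_dirv, hx, smul_sub, neg_smul]
        abel
      · show (yp e (WithLp.ofLp (x - (-r) • dirv e d)), r) ∈ H
        rw [sub_eq_add_neg, ← neg_smul, neg_neg, yp_dirv]; exact hr
      · show w + d - d ∈ D
        rw [add_sub_cancel_right]; exact hw
      · show xp e (WithLp.ofLp (x - (-r) • dirv e d)) = r • (w + d)
        rw [sub_eq_add_neg, ← neg_smul, neg_neg, xp_dirv, hx, smul_add]
    · rintro ⟨ρ, ⟨r1, hr1, w1, hw1, hx1⟩, ⟨r2, hr2, w2, hw2, hx2⟩⟩
      have hr1' : (yp e (WithLp.ofLp x), r1) ∈ H := by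
        have h3 := yp_dirv e d x ρ
        rw [← h3]; exact hr1
      have hr2' : (yp e (WithLp.ofLp x), r2) ∈ H := by
        have h3 := yp_dirv e d x (-ρ)
        rw [neg_smul, ← sub_eq_add_neg] at h3
        rw [← h3]; exact hr2
      have hx1' : xp e (WithLp.ofLp x) + ρ • d = r1 • w1 := by
        rw [← xp_dirv]; exact hx1
      have hx2' : xp e (WithLp.ofLp x) - ρ • d = r2 • w2 := by
        have h3 := xp_dirv e d x (-ρ)
        rw [neg_smul, ← sub_eq_add_neg, neg_smul, ← sub_eq_add_neg] at h3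
        rw [← h3]; exact hx2
      have hn1 := hH.nn _ _ hr1'
      have hn2 := hH.nn _ _ hr2'
      have hs : (yp e (WithLp.ofLp x), max r1 r2) ∈ H := by
        rcases max_choice r1 r2 with h3 | h3 <;> rw [h3]
        · exact hr1'
        · exact hr2'
      set s := max r1 r2 with hsd
      have hs1 : r1 ≤ s := le_max_left _ _
      have hs2 : r2 ≤ s := le_max_right _ _
      have hxx : xp e (WithLp.ofLp x) = (1 / 2 : ℝ) • (r1 • w1 + r2 • w2) := by
        rw [← hx1', ← hx2']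
        have h3 : xp e (WithLp.ofLp x) + ρ • d + (xp e (WithLp.ofLp x) - ρ • d) =
          (2 : ℝ) • xp e (WithLp.ofLp x) := by rw [two_smul]; abel
        rw [h3, smul_smul]
        norm_num
      rcases (hn1.trans hs1).eq_or_lt with h0 | hspos
      · have e1 : r1 = 0 := le_antisymm (by rw [h0]; exact hs1) hn1
        have e2 : r2 = 0 := le_antisymm (by rw [h0]; exact hs2) hn2
        refine ⟨s, hs, d, h1, ?_⟩
        rw [hxx, e1, e2, ← h0]
        simp
      · -- rescale
        set t1 := r1 / s with ht1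
        set t2 := r2 / s with ht2
        have a1 : 0 ≤ t1 := div_nonneg hn1 hspos.le
        have a2 : 0 ≤ t2 := div_nonneg hn2 hspos.le
        have b1 : t1 ≤ 1 := (div_le_one hspos).2 hs1
        have b2 : t2 ≤ 1 := (div_le_one hspos).2 hs2
        have c1 : t1 • w1 + d ∈ D := by
          have h3 := hc hw1 h1 a1 (sub_nonneg.2 b1) (by ring)
          have h4 : t1 • (w1 + d) + (1 - t1) • d = t1 • w1 + d := by
            rw [smul_add, sub_smul, one_smul]; abel
          rw [← h4]; exact h3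
        have c2 : t2 • w2 - d ∈ D := by
          have h3 := hc hw2 h2 a2 (sub_nonneg.2 b2) (by ring)
          have h4 : t2 • (w2 - d) + (1 - t2) • (-d) = t2 • w2 - d := by
            rw [smul_sub, sub_smul, one_smul, smul_neg]; abel
          rw [← h4]; exact h3
        have c3 := hc c1 c2 (by norm_num : (0 : ℝ) ≤ 1 / 2) (by norm_num : (0 : ℝ) ≤ 1 / 2)
          (by norm_num)
        refine ⟨s, hs, _, c3, ?_⟩
        rw [hxx]
        have e1 : r1 = s * t1 := by rw [ht1]; field_simp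
        have e2 : r2 = s * t2 := by rw [ht2]; field_simp
        rw [e1, e2]
        ext j
        simp only [Pi.smul_apply, Pi.add_apply, Pi.sub_apply, smul_eq_mul]
        ring

end Vale.Agent.P248.H432.V5
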