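import Vale.Agent.P248.H432.V5.LSpec

/-! P248: bodies fibred over a line by a simplex with the origin at a vertex are locally
anti-blocking. -/

open MeasureTheory Set

namespace Vale.Agent.P248.H432.V5

open Vale.Agent.P254.H242 (yp xp sp HG)

variable {n q p : ℕ}

theorem g3_el_zero (x : Fin p → ℝ) : el x 0 = -∑ j, x j := rfl

theorem g3_el_succ (x : Fin p → ℝ) (j : Fin p) : el x j.succ = x j := rfl

theorem g3_el_add (x y : Fin p → ℝ) (k : Fin (p + 1)) : el (x + y) k = el x k + el y k := by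
  refine Fin.cases ?_ (fun j => ?_) k
  · rw [g3_el_zero, g3_el_zero, g3_el_zero]
    simp only [Pi.add_apply, Finset.sum_add_distrib]
    ring
  · rfl

theorem g3_el_smul (c : ℝ) (x : Fin p → ℝ) (k : Fin (p + 1)) : el (c • x) k = c * el x k := by
  refine Fin.cases ?_ (fun j => ?_) k
  · rw [g3_el_zero, g3_el_zero]
    simp only [Pi.smul_apply, smul_eq_mul, ← Finset.mul_sum]
    ring
  · rfl

theorem g3_el_sum (x : Fin p → ℝ) (i : Fin (p + 1)) :
    el x i = -∑ k, el x (i.succAbove k) := by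
  have h1 : ∑ k, el x k = 0 := by
    rw [Fin.sum_univ_succ, g3_el_zero]
    simp only [g3_el_succ]
    ring
  rw [Fin.sum_univ_succAbove _ i] at h1
  linarith

theorem g3_el_ext {x : Fin p → ℝ} {i : Fin (p + 1)} (h : ∀ k, el x (i.succAbove k) = 0) :
    x = 0 := by
  have h1 : el x i = 0 := by
    rw [g3_el_sum]
    simp only [h, Finset.sum_const_zero, neg_zero]
  funext j
  rw [← g3_el_succ x j]
  rcases eq_or_ne j.succ i with h2 | h2
  · rw [h2, h1]
    rfl
  · obtain ⟨k, hk⟩ := Fin.exists_succAbove_eq h2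
    rw [← hk, h]
    rfl

theorem g3_scale (i : Fin (p + 1)) {r : ℝ} (hr : 0 ≤ r) (x : Fin p → ℝ) :
    (∃ w ∈ Dl (Pi.single i 1 : Fin (p + 1) → ℝ), x = r • w) ↔
      (∀ k, 0 ≤ el x (i.succAbove k)) ∧ ∑ k, el x (i.succAbove k) ≤ r := by
  constructor
  · rintro ⟨w, hw, rfl⟩
    have h1 : ∀ k, 0 ≤ el w (i.succAbove k) := fun k => by
      have h2 := hw (i.succAbove k)
      rwa [Pi.single_eq_of_ne (Fin.succAbove_ne i k), add_zero] at h2
    have h3 := hw i
    rw [Pi.single_eq_same, g3_el_sum] at h3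
    simp only [g3_el_smul, ← Finset.mul_sum]
    exact ⟨fun k => mul_nonneg hr (h1 k), by nlinarith⟩
  · rintro ⟨h1, h2⟩
    rcases eq_or_lt_of_le hr with h0 | h0
    · subst h0
      have h3 : ∀ k, el x (i.succAbove k) = 0 := fun k => by
        have h4 : el x (i.succAbove k) ≤ ∑ k, el x (i.succAbove k) :=
          Finset.single_le_sum (fun k _ => h1 k) (Finset.mem_univ k)
        exact le_antisymm (h4.trans h2) (h1 k)
      refine ⟨0, fun k => ?_, by rw [zero_smul]; exact g3_el_ext h3⟩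
      have h5 : el (0 : Fin p → ℝ) k = 0 := by
        have := g3_el_smul 0 (0 : Fin p → ℝ) k
        rwa [zero_smul, zero_mul] at this
      rw [h5, zero_add]
      rcases eq_or_ne k i with rfl | h6
      · rw [Pi.single_eq_same]; norm_num
      · rw [Pi.single_eq_of_ne h6]
    · refine ⟨r⁻¹ • x, fun k => ?_, ?_⟩
      · rw [g3_el_smul]
        rcases eq_or_ne k i with rfl | h6
        · rw [Pi.single_eq_same, g3_el_sum]
          have h7 : r⁻¹ * ∑ j, el x (k.succAbove j) ≤ 1 := by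
            rw [inv_mul_le_iff₀ h0, mul_one]
            exact h2
          linarith
        · rw [Pi.single_eq_of_ne h6, add_zero]
          obtain ⟨j, rfl⟩ := Fin.exists_succAbove_eq h6
          exact mul_nonneg (inv_nonneg.2 hr) (h1 j)
      · rw [smul_smul, mul_inv_cancel₀ h0.ne', one_smul]

/-- the coordinates -/
noncomputable def g3F (e : Fin n ≃ Fin 1 ⊕ Fin p) (i : Fin (p + 1)) (z : E n) :
    Fin 1 ⊕ Fin p → ℝ :=
  Sum.elim (fun j => yp e (WithLp.ofLp z) j)
    (fun k => el (xp e (WithLp.ofLp z)) (i.succAbove k))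

theorem g3F_add (e : Fin n ≃ Fin 1 ⊕ Fin p) (i : Fin (p + 1)) (z w : E n)
    (m : Fin 1 ⊕ Fin p) : g3F e i (z + w) m = g3F e i z m + g3F e i w m := by
  rcases m with j | k
  · rfl
  · exact g3_el_add _ _ _

theorem g3F_smul (e : Fin n ≃ Fin 1 ⊕ Fin p) (i : Fin (p + 1)) (c : ℝ) (z : E n)
    (m : Fin 1 ⊕ Fin p) : g3F e i (c • z) m = c * g3F e i z m := by
  rcases m with j | k
  · rfl
  · exact g3_el_smul _ _ _

/-- the linear coordinates -/
noncomputable def g3L (e : Fin n ≃ Fin 1 ⊕ Fin p) (i : Fin (p + 1)) :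
    E n →ₗ[ℝ] (Fin n → ℝ) where
  toFun z m := g3F e i z (e m)
  map_add' z w := funext fun m => g3F_add e i z w (e m)
  map_smul' c z := funext fun m => g3F_smul e i c z (e m)

theorem g3L_inl (e : Fin n ≃ Fin 1 ⊕ Fin p) (i : Fin (p + 1)) (z : E n) (j : Fin 1) :
    g3L e i z (e.symm (Sum.inl j)) = yp e (WithLp.ofLp z) j := by
  show g3F e i z (e (e.symm (Sum.inl j))) = _
  rw [Equiv.apply_symm_apply]
  rfl

theorem g3L_inr (e : Fin n ≃ Fin 1 ⊕ Fin p) (i : Fin (p + 1)) (z : E n) (k : Fin p) :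
    g3L e i z (e.symm (Sum.inr k)) = el (xp e (WithLp.ofLp z)) (i.succAbove k) := by
  show g3F e i z (e (e.symm (Sum.inr k))) = _
  rw [Equiv.apply_symm_apply]
  rfl

theorem g3L_inj (e : Fin n ≃ Fin 1 ⊕ Fin p) (i : Fin (p + 1)) :
    Function.Injective (g3L e i) := by
  rw [injective_iff_map_eq_zero]
  intro z hz
  have h1 : yp e (WithLp.ofLp z) = 0 := by
    funext j
    rw [← g3L_inl e i z j, hz]
    rfl
  have h2 : xp e (WithLp.ofLp z) = 0 := by
    refine g3_el_ext (i := i) fun k => ?_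
    rw [← g3L_inr e i z k, hz]
    rfl
  have h3 : WithLp.ofLp z = (0 : Fin n → ℝ) :=
    Vale.Agent.P254.H242.ext_yx e (by rw [h1]; rfl) (by rw [h2]; rfl)
  ext m
  rw [h3]
  rfl

theorem g3_mem (e : Fin n ≃ Fin 1 ⊕ Fin p) {H : Set ((Fin 1 → ℝ) × ℝ)} (hH : HG H)
    (i : Fin (p + 1)) (z : E n) :
    z ∈ EE (CC e H (Dl (Pi.single i 1))) ↔
      ∃ r, ((fun j => g3L e i z (e.symm (Sum.inl j))), r) ∈ H ∧
        (∀ k, 0 ≤ g3L e i z (e.symm (Sum.inr k))) ∧
        ∑ k, g3L e i z (e.symm (Sum.inr k)) ≤ r := by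
  have h0 : (fun j => g3L e i z (e.symm (Sum.inl j))) = yp e (WithLp.ofLp z) :=
    funext fun j => g3L_inl e i z j
  simp only [g3L_inr, h0]
  constructor
  · rintro ⟨r, hr, hw⟩
    exact ⟨r, hr, (g3_scale i (hH.nn _ _ hr) _).1 hw⟩
  · rintro ⟨r, hr, hw⟩
    exact ⟨r, hr, (g3_scale i (hH.nn _ _ hr) _).2 hw⟩

theorem cc_vertex (e : Fin n ≃ Fin 1 ⊕ Fin p) {H : Set ((Fin 1 → ℝ) × ℝ)} (hH : HG H)
    (hne : H.Nonempty) (i : Fin (p + 1)) :
    IsLocallyAntiBlocking (EE (CC e H (Dl (Pi.single i 1)))) := by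
  obtain ⟨⟨t, s⟩, hts, hmax⟩ := hH.cpt.exists_isMaxOn hne continuous_snd.continuousOn
  have hmax' : ∀ y r, (y, r) ∈ H → r ≤ s := fun y r h => hmax h
  have hfin : Module.finrank ℝ (E n) = Module.finrank ℝ (Fin n → ℝ) := by
    rw [finrank_euclideanSpace, Module.finrank_pi]
  let Ψ : E n ≃ₗ[ℝ] (Fin n → ℝ) := LinearMap.linearEquivOfInjective (g3L e i) (g3L_inj e i) hfin
  have hΨ : ∀ z, Ψ z = g3L e i z := fun z => rfl
  let P : E n := WithLp.toLp 2 (sp e (t, 0))
  have hPl : ∀ j, g3L e i P (e.symm (Sum.inl j)) = t j := fun j => by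
    rw [g3L_inl]
    show yp e (sp e (t, 0)) j = t j
    rw [Vale.Agent.P254.H242.yp_sp]
  have hPr : ∀ k, g3L e i P (e.symm (Sum.inr k)) = 0 := fun k => by
    rw [g3L_inr]
    show el (xp e (sp e (t, 0))) (i.succAbove k) = 0
    rw [Vale.Agent.P254.H242.xp_sp]
    have := g3_el_smul 0 (0 : Fin p → ℝ) (i.succAbove k)
    rwa [zero_smul, zero_mul] at this
  refine ⟨P, Module.Basis.ofEquivFun Ψ, fun x hx m => ?_⟩
  have hb : (Module.Basis.ofEquivFun Ψ) m = Ψ.symm (Pi.single m 1) := by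
    rw [Module.Basis.coe_ofEquivFun]
  have hrep : ∀ z, (Module.Basis.ofEquivFun Ψ).repr z m = g3L e i z m := fun z => by
    rw [Module.Basis.ofEquivFun_repr_apply, hΨ]
  rw [hb, hrep]
  set x' : E n := x - g3L e i (x - P) m • Ψ.symm (Pi.single m 1) with hx'
  have hL : ∀ l, g3L e i x' l =
      g3L e i x l - (g3L e i x m - g3L e i P m) * (Pi.single m 1 : Fin n → ℝ) l := fun l => by
    rw [hx', map_sub, map_smul, map_sub, ← hΨ (Ψ.symm (Pi.single m 1)),
      LinearEquiv.apply_symm_apply]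
    rfl
  have hLm : g3L e i x' m = g3L e i P m := by
    rw [hL, Pi.single_eq_same]
    ring
  have hLn : ∀ l, l ≠ m → g3L e i x' l = g3L e i x l := fun l hl => by
    rw [hL, Pi.single_eq_of_ne hl]
    ring
  rw [g3_mem e hH] at hx ⊢
  obtain ⟨r, hr, hk, hs⟩ := hx
  rcases hm : e m with j | k
  · have hmj : m = e.symm (Sum.inl j) := by rw [← hm, Equiv.symm_apply_apply]
    have e1 : (fun j => g3L e i x' (e.symm (Sum.inl j))) = t := by
      funext j'
      have : j' = j := Subsingleton.elim _ _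
      rw [this, ← hmj, hLm, hmj, hPl]
    have e2 : ∀ k, g3L e i x' (e.symm (Sum.inr k)) = g3L e i x (e.symm (Sum.inr k)) :=
      fun k => hLn _ (by rw [hmj]; simp)
    refine ⟨s, by rw [e1]; exact hts, fun k => by rw [e2]; exact hk k, ?_⟩
    simp only [e2]
    exact hs.trans (hmax' _ _ hr)
  · have hmk : m = e.symm (Sum.inr k) := by rw [← hm, Equiv.symm_apply_apply]
    have e1 : (fun j => g3L e i x' (e.symm (Sum.inl j))) =
        fun j => g3L e i x (e.symm (Sum.inl j)) :=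
      funext fun j => hLn _ (by rw [hmk]; simp)
    have e2 : g3L e i x' (e.symm (Sum.inr k)) = 0 := by rw [← hmk, hLm, hmk, hPr]
    have e3 : ∀ k', k' ≠ k →
        g3L e i x' (e.symm (Sum.inr k')) = g3L e i x (e.symm (Sum.inr k')) :=
      fun k' hk' => hLn _ (by rw [hmk]; simpa using hk')
    have e4 : ∀ k', 0 ≤ g3L e i x' (e.symm (Sum.inr k')) ∧
        g3L e i x' (e.symm (Sum.inr k')) ≤ g3L e i x (e.symm (Sum.inr k')) := fun k' => by
      rcases eq_or_ne k' k with h | h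
      · rw [h, e2]
        exact ⟨le_rfl, hk k⟩
      · rw [e3 k' h]
        exact ⟨hk k', le_rfl⟩
    refine ⟨r, by rw [e1]; exact hr, fun k' => (e4 k').1, ?_⟩
    exact (Finset.sum_le_sum fun k' _ => (e4 k').2).trans hs

end Vale.Agent.P248.H432.V5
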