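import Vale.Agent.P248.H432.V5.LSpec

/-! P248: the simplices `Dl a` are bodies; the one with the barycentre at the origin is a
simplex. -/

open MeasureTheory Set

namespace Vale.Agent.P248.H432.V5

open Vale.Agent.P254.H242 (yp xp sp HG)

variable {n q p : ℕ}

theorem g6_zero (x : Fin p → ℝ) : el x 0 = -∑ j, x j := rfl

theorem g6_succ (x : Fin p → ℝ) (j : Fin p) : el x j.succ = x j := rfl

theorem g6_comb (s t : ℝ) (x y : Fin p → ℝ) (i : Fin (p + 1)) :
    el (s • x + t • y) i = s * el x i + t * el y i := by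
  refine Fin.cases ?_ (fun j => ?_) i
  · rw [g6_zero, g6_zero, g6_zero]
    simp only [Pi.add_apply, Pi.smul_apply, smul_eq_mul]
    rw [Finset.sum_add_distrib, ← Finset.mul_sum, ← Finset.mul_sum]
    ring
  · rw [g6_succ, g6_succ, g6_succ]
    rfl

theorem g6_sum {a : Fin (p + 1) → ℝ} (hs : ∑ i, a i = 1) (x : Fin p → ℝ) :
    ∑ i, (el x i + a i) = 1 := by
  rw [Finset.sum_add_distrib, hs, Fin.sum_univ_succ, g6_zero]
  simp only [g6_succ]
  ring

theorem g6_cont (i : Fin (p + 1)) : Continuous fun x : Fin p → ℝ => el x i := by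
  refine Fin.cases ?_ (fun j => ?_) i
  · simp only [g6_zero]
    fun_prop
  · simp only [g6_succ]
    fun_prop

theorem g6_convex (a : Fin (p + 1) → ℝ) : Convex ℝ (Dl a) := by
  intro x hx y hy s t hs ht hst i
  have h1 := mul_nonneg hs (hx i)
  have h2 := mul_nonneg ht (hy i)
  rw [g6_comb]
  have h3 : a i = s * a i + t * a i := by rw [← add_mul, hst, one_mul]
  linarith

theorem dl_body {a : Fin (p + 1) → ℝ} (ha : ∀ i, 0 ≤ a i) (hs : ∑ i, a i = 1) :
    IsCompact (Dl a) ∧ Convex ℝ (Dl a) ∧ (0 : Fin p → ℝ) ∈ Dl a ∧ (interior (Dl a)).Nonempty := by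
  have ha1 : ∀ i, a i ≤ 1 := fun i => by
    rw [← hs]
    exact Finset.single_le_sum (fun j _ => ha j) (Finset.mem_univ i)
  refine ⟨?_, g6_convex a, ?_, ?_⟩
  · refine Metric.isCompact_of_isClosed_isBounded ?_ ?_
    · have h1 : Dl a = ⋂ i, {x : Fin p → ℝ | 0 ≤ el x i + a i} := by
        ext x
        rw [mem_iInter]
        rfl
      rw [h1]
      exact isClosed_iInter fun i =>
        isClosed_le continuous_const ((g6_cont i).add continuous_const)
    · refine (Metric.isBounded_closedBall (x := (0 : Fin p → ℝ)) (r := 1)).subset fun x hx => ?_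
      rw [mem_closedBall_zero_iff]
      refine (pi_norm_le_iff_of_nonneg zero_le_one).2 fun j => ?_
      have h2 : el x j.succ + a j.succ ≤ 1 := by
        rw [← g6_sum hs x]
        exact Finset.single_le_sum (f := fun i => el x i + a i) (fun i _ => hx i)
          (Finset.mem_univ j.succ)
      have h3 := hx j.succ
      rw [g6_succ] at h2 h3
      have h4 := ha j.succ
      have h5 := ha1 j.succ
      rw [Real.norm_eq_abs, abs_le]
      constructor <;> linarith
  · intro i
    have : el (0 : Fin p → ℝ) i = 0 := by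
      refine Fin.cases ?_ (fun j => ?_) i
      · rw [g6_zero]; simp
      · rw [g6_succ]; rfl
    rw [this, zero_add]
    exact ha i
  · have hp : (0 : ℝ) < (p : ℝ) + 1 := by positivity
    have hU : IsOpen {x : Fin p → ℝ | ∀ i, 0 < el x i + a i} := by
      have h1 : {x : Fin p → ℝ | ∀ i, 0 < el x i + a i} =
          ⋂ i, {x : Fin p → ℝ | 0 < el x i + a i} := by
        ext x
        rw [mem_iInter]
        rfl
      rw [h1]
      exact isOpen_iInter_of_finite fun i =>
        isOpen_lt continuous_const ((g6_cont i).add continuous_const)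
    refine ⟨fun j => 1 / ((p : ℝ) + 1) - a j.succ, interior_maximal (fun x hx i => (hx i).le) hU ?_⟩
    intro i
    refine Fin.cases ?_ (fun j => ?_) i
    · rw [g6_zero]
      have h2 : ∑ j : Fin p, (1 / ((p : ℝ) + 1) - a j.succ) = p / ((p : ℝ) + 1) - (1 - a 0) := by
        rw [Finset.sum_sub_distrib, Finset.sum_const, Finset.card_univ, Fintype.card_fin,
          nsmul_eq_mul, mul_one_div]
        congr 1
        rw [← hs, Fin.sum_univ_succ]
        ring
      rw [h2]
      have h3 : -((p : ℝ) / ((p : ℝ) + 1) - (1 - a 0)) + a 0 = 1 / ((p : ℝ) + 1) := by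
        field_simp
        ring
      rw [h3]
      positivity
    · rw [g6_succ]
      have : 1 / ((p : ℝ) + 1) - a j.succ + a j.succ = 1 / ((p : ℝ) + 1) := by ring
      rw [this]
      positivity

/-- the vertices -/
noncomputable def g6_v (a : Fin (p + 1) → ℝ) : Fin (p + 1) → (Fin p → ℝ) :=
  Fin.cons (fun j => -a j.succ) (fun k j => (Pi.single k (1 : ℝ) : Fin p → ℝ) j - a j.succ)

theorem g6_el_v (a : Fin (p + 1) → ℝ) (hs : ∑ i, a i = 1) (i k : Fin (p + 1)) :
    el (g6_v a k) i + a i = if i = k then 1 else 0 := by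
  have hs' : ∑ j : Fin p, a j.succ = 1 - a 0 := by
    rw [← hs, Fin.sum_univ_succ]
    ring
  refine Fin.cases (motive := fun k => el (g6_v a k) i + a i = if i = k then 1 else 0)
    ?_ (fun k => ?_) k
  · refine Fin.cases ?_ (fun j => ?_) i
    · rw [g6_zero]
      show -∑ j : Fin p, -a j.succ + a 0 = _
      rw [Finset.sum_neg_distrib, hs']
      simp
    · rw [g6_succ]
      show -a j.succ + a j.succ = _
      simp
  · refine Fin.cases ?_ (fun j => ?_) i
    · rw [g6_zero]
      show -∑ j : Fin p, ((Pi.single k (1 : ℝ) : Fin p → ℝ) j - a j.succ) + a 0 = _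
      rw [Finset.sum_sub_distrib, hs', Finset.sum_pi_single']
      simp [(Fin.succ_ne_zero k).symm]
    · rw [g6_succ]
      show (Pi.single k (1 : ℝ) : Fin p → ℝ) j - a j.succ + a j.succ = _
      rw [sub_add_cancel, Pi.single_apply]
      simp [Fin.succ_inj]

theorem g6_hull {a : Fin (p + 1) → ℝ} (hs : ∑ i, a i = 1) :
    EE (Dl a) = convexHull ℝ (range fun i => (WithLp.toLp 2 (g6_v a i) : E p)) := by
  apply subset_antisymm
  · intro z hz
    have h1 : z = ∑ i, (el (WithLp.ofLp z) i + a i) • (WithLp.toLp 2 (g6_v a i) : E p) := by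
      refine PiLp.ext fun j => ?_
      rw [WithLp.ofLp_sum, Finset.sum_apply]
      have h2 : ∀ i : Fin (p + 1), ((el (WithLp.ofLp z) i + a i) •
          (WithLp.toLp 2 (g6_v a i) : E p)).ofLp j = (el (WithLp.ofLp z) i + a i) *
            (g6_v a i j) := fun i => rfl
      have h3 : ∀ i : Fin (p + 1), g6_v a i j = (if i = j.succ then 1 else 0) - a j.succ := by
        intro i
        have := g6_el_v a hs j.succ i
        rw [g6_succ] at this
        have h4 : (if i = j.succ then (1 : ℝ) else 0) = if j.succ = i then 1 else 0 := by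
          simp only [eq_comm]
        rw [h4, ← this]
        ring
      simp only [h2, h3, mul_sub]
      rw [Finset.sum_sub_distrib, ← Finset.sum_mul, g6_sum hs]
      simp [g6_succ]
    rw [h1]
    exact (convex_convexHull ℝ _).sum_mem (fun i _ => hz i) (g6_sum hs _)
      fun i _ => subset_convexHull ℝ _ (mem_range_self i)
  · refine convexHull_min ?_ ?_
    · rintro _ ⟨k, rfl⟩ i
      show 0 ≤ el (g6_v a k) i + a i
      rw [g6_el_v a hs]
      split_ifs <;> norm_num
    · intro x hx y hy s t hs' ht' hst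
      exact g6_convex a hx hy hs' ht' hst

theorem g6_int {C : Set (Fin n → ℝ)} (hC : (interior C).Nonempty) :
    (interior (EE C)).Nonempty := by
  have h1 : EE C = (EuclideanSpace.equiv (Fin n) ℝ).toHomeomorph ⁻¹' C := rfl
  rw [h1, ← Homeomorph.preimage_interior]
  exact hC.preimage (EuclideanSpace.equiv (Fin n) ℝ).toHomeomorph.surjective

theorem dl_simplex {a : Fin (p + 1) → ℝ} (ha : ∀ i, 0 ≤ a i) (hs : ∑ i, a i = 1) :
    IsSimplex (EE (Dl a)) := by
  have h0 := g6_hull hs
  refine ⟨fun i => WithLp.toLp 2 (g6_v a i), ?_, h0⟩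
  have hKi := g6_int (dl_body ha hs).2.2.2
  rw [h0] at hKi
  have hspan := interior_convexHull_nonempty_iff_affineSpan_eq_top.mp hKi
  refine (affineIndependent_iff_finrank_vectorSpan_eq ℝ _
    (by simp : Fintype.card (Fin (p + 1)) = p + 1)).mpr ?_
  rw [← direction_affineSpan, hspan, AffineSubspace.direction_top, finrank_top]
  simp only [finrank_euclideanSpace, Fintype.card_fin]

theorem w_simplex (p : ℕ) : IsSimplex (EE (Dl (fun _ : Fin (p + 1) => 1 / ((p : ℝ) + 1)))) := by
  refine dl_simplex (fun i => by positivity) ?_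
  rw [Finset.sum_const, Finset.card_univ, Fintype.card_fin, nsmul_eq_mul]
  have : (p : ℝ) + 1 ≠ 0 := by positivity
  push_cast
  field_simp

end Vale.Agent.P248.H432.V5
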