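import Vale.Agent.P248.H432.V5.LSpec

/-! P248: the centred simplex has Santaló point `0`. -/

open MeasureTheory Set

namespace Vale.Agent.P248.H432.V5

open Vale.Agent.P254.H242 (yp xp sp HG)

variable {n q p : ℕ}

/-- `B(y)_k = y_k - y_j` for `k ≠ j`, `B(y)_j = -y_j` -/
noncomputable def g6a_B (j : Fin p) : E p →ₗ[ℝ] E p where
  toFun y := WithLp.toLp 2 (fun k => if k = j then - y j else y k - y j)
  map_add' x y := by
    ext k
    simp only [PiLp.add_apply]
    split_ifs <;> ring
  map_smul' c x := by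
    ext k
    simp only [PiLp.smul_apply, smul_eq_mul, RingHom.id_apply]
    split_ifs <;> ring

theorem g6a_B_apply (j k : Fin p) (y : E p) :
    g6a_B j y k = if k = j then - y j else y k - y j := rfl

/-- `A(x)_k = x_k` for `k ≠ j`, `A(x)_j = -∑ x` -/
noncomputable def g6a_A (j : Fin p) (x : E p) : E p :=
  WithLp.toLp 2 (fun k => if k = j then - ∑ i, x i else x k)

theorem g6a_A_apply (j k : Fin p) (x : E p) :
    g6a_A j x k = if k = j then - ∑ i, x i else x k := rfl

theorem g6a_invol (j : Fin p) : Function.Involutive (g6a_B j : E p → E p) := by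
  intro y
  ext k
  rw [g6a_B_apply, g6a_B_apply, g6a_B_apply]
  simp only [if_true]
  split_ifs with h
  · subst h; ring
  · ring

theorem g6a_inner (j : Fin p) (x y : E p) : inner ℝ (g6a_B j y) x = inner ℝ y (g6a_A j x) := by
  simp only [PiLp.inner_apply, RCLike.inner_apply, conj_trivial]
  rw [← Finset.add_sum_erase _ _ (Finset.mem_univ j), ← Finset.add_sum_erase _ _ (Finset.mem_univ j)]
  rw [g6a_B_apply, g6a_A_apply, if_pos rfl, if_pos rfl]
  have h1 : ∑ i ∈ Finset.univ.erase j, x i * g6a_B j y i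
      = ∑ i ∈ Finset.univ.erase j, (x i * y i) - (∑ i ∈ Finset.univ.erase j, x i) * y j := by
    rw [Finset.sum_mul, ← Finset.sum_sub_distrib]
    apply Finset.sum_congr rfl
    intro i hi
    rw [g6a_B_apply, if_neg (Finset.ne_of_mem_erase hi)]; ring
  have h2 : ∑ i ∈ Finset.univ.erase j, g6a_A j x i * y i
      = ∑ i ∈ Finset.univ.erase j, (x i * y i) := by
    apply Finset.sum_congr rfl
    intro i hi
    rw [g6a_A_apply, if_neg (Finset.ne_of_mem_erase hi)]
  have h3 : ∑ i, x i = x j + ∑ i ∈ Finset.univ.erase j, x i :=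
    (Finset.add_sum_erase _ _ (Finset.mem_univ j)).symm
  rw [h1, h2, h3]; ring

theorem g6a_sumA (j : Fin p) (x : E p) : ∑ i, g6a_A j x i = - x j := by
  rw [← Finset.add_sum_erase _ _ (Finset.mem_univ j), g6a_A_apply, if_pos rfl]
  have h2 : ∑ i ∈ Finset.univ.erase j, g6a_A j x i = ∑ i ∈ Finset.univ.erase j, x i := by
    apply Finset.sum_congr rfl
    intro i hi
    rw [g6a_A_apply, if_neg (Finset.ne_of_mem_erase hi)]
  have h3 : ∑ i, x i = x j + ∑ i ∈ Finset.univ.erase j, x i :=
    (Finset.add_sum_erase _ _ (Finset.mem_univ j)).symm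
  rw [h2, h3]; ring

theorem g6a_mem (c : ℝ) (j : Fin p) (x : E p) (hx : x ∈ EE (Dl (fun _ : Fin (p + 1) => c))) :
    g6a_A j x ∈ EE (Dl (fun _ : Fin (p + 1) => c)) := by
  intro i
  have hx' : ∀ i, 0 ≤ el (WithLp.ofLp x) i + c := hx
  refine Fin.cases ?_ (fun k => ?_) i
  · have h := hx' j.succ
    simp only [el, Fin.cons_succ, Fin.cons_zero] at h ⊢
    have h2 := g6a_sumA j x
    rw [h2]; simpa using h
  · simp only [el, Fin.cons_succ]
    rw [g6a_A_apply]
    split_ifs with hk
    · have h := hx' 0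
      simpa only [el, Fin.cons_zero] using h
    · have h := hx' k.succ
      simpa only [el, Fin.cons_succ] using h

theorem g6a_pre (c : ℝ) (j : Fin p) :
    (g6a_B j : E p → E p) ⁻¹' (polarAt (EE (Dl (fun _ : Fin (p + 1) => c))) 0)
      = polarAt (EE (Dl (fun _ : Fin (p + 1) => c))) 0 := by
  have h1 : ∀ y ∈ polarAt (EE (Dl (fun _ : Fin (p + 1) => c))) 0,
      g6a_B j y ∈ polarAt (EE (Dl (fun _ : Fin (p + 1) => c))) 0 := by
    intro y hy x hx
    have h := hy (g6a_A j x) (g6a_mem c j x hx)
    rw [sub_zero] at h ⊢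
    rw [g6a_inner]; exact h
  ext y
  constructor
  · intro hy
    have := h1 _ hy
    rwa [g6a_invol j y] at this
  · intro hy
    exact h1 y hy

theorem g6a_mp (j : Fin p) :
    MeasurePreserving (g6a_B j : E p → E p) volume volume := by
  have hc : Continuous (g6a_B j : E p → E p) := LinearMap.continuous_of_finiteDimensional _
  have hd : LinearMap.det (g6a_B j) * LinearMap.det (g6a_B j) = 1 := by
    rw [← LinearMap.det_comp]
    have : (g6a_B j) ∘ₗ (g6a_B j) = LinearMap.id := by
      ext1 y; exact g6a_invol j y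
    rw [this, LinearMap.det_id]
  have hne : LinearMap.det (g6a_B j) ≠ 0 := by
    intro h; rw [h] at hd; norm_num at hd
  have ha : |(LinearMap.det (g6a_B j))⁻¹| = 1 := by
    rcases mul_self_eq_one_iff.mp hd with h | h <;> rw [h] <;> norm_num
  refine ⟨hc.measurable, ?_⟩
  rw [Measure.map_linearMap_addHaar_eq_smul_addHaar _ hne, ha]
  simp

theorem g6a_int (c : ℝ) (j : Fin p) :
    ∫ y in polarAt (EE (Dl (fun _ : Fin (p + 1) => c))) 0, y j = 0 := by
  have hc : Continuous (g6a_B j : E p → E p) := LinearMap.continuous_of_finiteDimensional _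
  have hemb : MeasurableEmbedding (g6a_B j : E p → E p) :=
    (MeasurableEquiv.ofInvolutive _ (g6a_invol j) hc.measurable).measurableEmbedding
  have h := (g6a_mp j).setIntegral_preimage_emb hemb (fun y : E p => y j)
    (polarAt (EE (Dl (fun _ : Fin (p + 1) => c))) 0)
  rw [g6a_pre] at h
  have h2 : ∀ y : E p, g6a_B j y j = - y j := by
    intro y; rw [g6a_B_apply, if_pos rfl]
  simp only [h2] at h
  rw [integral_neg] at h
  linarith

theorem w_santalo (p : ℕ) : IsSantalo (EE (Dl (fun _ : Fin (p + 1) => 1 / ((p : ℝ) + 1)))) := by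
  constructor
  · rw [mem_interior]
    refine ⟨{z : E p | ∀ i, 0 < el (WithLp.ofLp z) i + 1 / ((p : ℝ) + 1)}, ?_, ?_, ?_⟩
    · intro z hz i
      exact (hz i).le
    · have : {z : E p | ∀ i, 0 < el (WithLp.ofLp z) i + 1 / ((p : ℝ) + 1)}
          = ⋂ i, {z : E p | 0 < el (WithLp.ofLp z) i + 1 / ((p : ℝ) + 1)} := by
        ext z; simp
      rw [this]
      apply isOpen_iInter_of_finite
      intro i
      apply isOpen_lt continuous_const
      apply Continuous.add _ continuous_const
      refine Fin.cases ?_ (fun k => ?_) i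
      · simp only [el, Fin.cons_zero]
        fun_prop
      · simp only [el, Fin.cons_succ]
        fun_prop
    · intro i
      have h0 : (0:ℝ) < 1 / ((p:ℝ) + 1) := by positivity
      refine Fin.cases ?_ (fun k => ?_) i
      · simp only [el, Fin.cons_zero]
        simpa using h0
      · simp only [el, Fin.cons_succ]
        simpa using h0
  · rw [setAverage_eq]
    have h : ∫ x in polarAt (EE (Dl (fun _ : Fin (p + 1) => 1 / ((p : ℝ) + 1)))) 0, x = 0 := by
      by_cases hi : Integrable (fun x : E p => x)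
          (volume.restrict (polarAt (EE (Dl (fun _ : Fin (p + 1) => 1 / ((p : ℝ) + 1)))) 0))
      · ext j
        have h1 := (EuclideanSpace.proj (𝕜 := ℝ) j : E p →L[ℝ] ℝ).integral_comp_comm hi
        have h2 := g6a_int (1 / ((p : ℝ) + 1)) j
        simp only [PiLp.proj_apply] at h1
        rw [← h1] 
        exact h2
      · exact integral_undef hi
    rw [h, smul_zero]

end Vale.Agent.P248.H432.V5
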