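import Mathlib

/-! P248: a minimum over a grid in the simplex is attained at a vertex. -/

open scoped ENNReal

namespace Vale.Agent.P248.H432.V5

/-- midpoint-quasiconcave functions on the grid of the simplex are bounded below by their values at
the vertices, if the quasiconcavity is strict at unequal values -/
theorem grid {p N : ℕ} {F : (Fin (p + 1) → ℕ) → ℝ≥0∞} {m : ℝ≥0∞}
    (hstep : ∀ (a b c : Fin (p + 1) → ℕ) (i j : Fin (p + 1)), i ≠ j → ∑ k, a k = N →
      b + Pi.single j 1 = a + Pi.single i 1 → c + Pi.single i 1 = a + Pi.single j 1 →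
      min (F b) (F c) ≤ F a ∧ (F b ≠ F c → min (F b) (F c) < F a))
    (hv : ∀ i, m ≤ F (Pi.single i N)) (a : Fin (p + 1) → ℕ) (ha : ∑ k, a k = N) : m ≤ F a := by
  classical
  obtain ⟨S, hS⟩ : ∃ S : Finset (Fin (p + 1) → ℕ), ∀ b, b ∈ S ↔ ∑ k, b k = N :=
    ⟨Finset.univ.piAntidiag N, fun b => by simp [Finset.mem_piAntidiag]⟩
  obtain ⟨a0, ha0, hmin⟩ := S.exists_min_image F ⟨a, (hS a).2 ha⟩
  obtain ⟨M, hM⟩ : ∃ M : Finset (Fin (p + 1) → ℕ), ∀ b, b ∈ M ↔ ∑ k, b k = N ∧ F b = F a0 :=
    ⟨S.filter fun b => F b = F a0, fun b => by rw [Finset.mem_filter, hS]⟩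
  obtain ⟨a1, ha1, hmax⟩ := M.exists_max_image (fun b => ∑ k, b k ^ 2)
    ⟨a0, (hM a0).2 ⟨(hS a0).1 ha0, rfl⟩⟩
  obtain ⟨h1, h2⟩ := (hM a1).1 ha1
  -- `a1` is a vertex
  have key : ∀ i j, i ≠ j → 0 < a1 i → a1 j = 0 := by
    intro i j hij hi
    by_contra hj
    have hj' : 0 < a1 j := Nat.pos_of_ne_zero hj
    obtain ⟨b, hb⟩ : ∃ b : Fin (p + 1) → ℕ, b + Pi.single j 1 = a1 + Pi.single i 1 := by
      refine ⟨a1 + Pi.single i 1 - Pi.single j 1, ?_⟩
      funext k
      simp only [Pi.add_apply, Pi.sub_apply]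
      by_cases hk : k = j
      · subst hk
        rw [Pi.single_eq_same, Pi.single_eq_of_ne (Ne.symm hij)]
        omega
      · rw [Pi.single_eq_of_ne hk]
        omega
    obtain ⟨c, hc⟩ : ∃ c : Fin (p + 1) → ℕ, c + Pi.single i 1 = a1 + Pi.single j 1 := by
      refine ⟨a1 + Pi.single j 1 - Pi.single i 1, ?_⟩
      funext k
      simp only [Pi.add_apply, Pi.sub_apply]
      by_cases hk : k = i
      · subst hk
        rw [Pi.single_eq_same, Pi.single_eq_of_ne hij]
        omega
      · rw [Pi.single_eq_of_ne hk]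
        omega
    obtain ⟨h3, h4⟩ := hstep a1 b c i j hij h1 hb hc
    have sumb : ∑ k, b k = N := by
      have h5 := congrArg (fun f : Fin (p + 1) → ℕ => ∑ k, f k) hb
      simp only [Pi.add_apply, Finset.sum_add_distrib, Finset.sum_pi_single', Finset.mem_univ,
        if_true] at h5
      omega
    have sumc : ∑ k, c k = N := by
      have h5 := congrArg (fun f : Fin (p + 1) → ℕ => ∑ k, f k) hc
      simp only [Pi.add_apply, Finset.sum_add_distrib, Finset.sum_pi_single', Finset.mem_univ,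
        if_true] at h5
      omega
    have hbm := hmin b ((hS b).2 sumb)
    have hcm := hmin c ((hS c).2 sumc)
    have hbc : F b = F c := by
      by_contra hne
      have h6 := h4 hne
      rw [h2] at h6
      exact absurd (le_min hbm hcm) (not_le.2 h6)
    rw [hbc, min_self, h2] at h3
    have hc0 : F c = F a0 := le_antisymm h3 hcm
    have hb0 : F b = F a0 := hbc.trans hc0
    have h7 := hmax b ((hM b).2 ⟨sumb, hb0⟩)
    have h8 := hmax c ((hM c).2 ⟨sumc, hc0⟩)
    have sq : ∀ (f : Fin (p + 1) → ℕ) (i j : Fin (p + 1)), i ≠ j →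
        f + Pi.single j 1 = a1 + Pi.single i 1 →
        ∑ k, ((f k ^ 2 : ℕ) : ℤ) = ∑ k, ((a1 k ^ 2 : ℕ) : ℤ) + 2 * a1 i - 2 * a1 j + 2 := by
      intro f i j hij hf
      have e1 : ∀ k, ((f k ^ 2 : ℕ) : ℤ) = ((a1 k ^ 2 : ℕ) : ℤ) +
          (if k = i then 2 * (a1 k : ℤ) + 1 else 0) - (if k = j then 2 * (a1 k : ℤ) - 1 else 0) := by
        intro k
        have h9 := congrFun hf k
        simp only [Pi.add_apply] at h9
        by_cases hki : k = i
        · subst hki
          rw [Pi.single_eq_same, Pi.single_eq_of_ne hij] at h9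
          rw [if_pos rfl, if_neg hij, show f k = a1 k + 1 by omega]
          push_cast
          ring
        · by_cases hkj : k = j
          · subst hkj
            rw [Pi.single_eq_same, Pi.single_eq_of_ne hki] at h9
            rw [if_pos rfl, if_neg hki, show a1 k = f k + 1 by omega]
            push_cast
            ring
          · rw [Pi.single_eq_of_ne hki, Pi.single_eq_of_ne hkj] at h9
            rw [if_neg hki, if_neg hkj, show f k = a1 k by omega]
            ring
      rw [Finset.sum_congr rfl fun k _ => e1 k, Finset.sum_sub_distrib, Finset.sum_add_distrib,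
        Finset.sum_ite_eq', Finset.sum_ite_eq', if_pos (Finset.mem_univ _),
        if_pos (Finset.mem_univ _)]
      ring
    have h9 := sq b i j hij hb
    have h10 := sq c j i (Ne.symm hij) hc
    have h11 : ∑ k, ((b k ^ 2 : ℕ) : ℤ) ≤ ∑ k, ((a1 k ^ 2 : ℕ) : ℤ) := by exact_mod_cast h7
    have h12 : ∑ k, ((c k ^ 2 : ℕ) : ℤ) ≤ ∑ k, ((a1 k ^ 2 : ℕ) : ℤ) := by exact_mod_cast h8
    omega
  have hvert : ∃ i, a1 = Pi.single i N := by
    by_cases hall : ∀ k, a1 k = 0
    · refine ⟨0, ?_⟩
      have hN : N = 0 := by rw [← h1]; exact Finset.sum_eq_zero fun k _ => hall k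
      rw [hN, Pi.single_zero]
      exact funext hall
    · push Not at hall
      obtain ⟨i, hi⟩ := hall
      have h3 : ∀ j, j ≠ i → a1 j = 0 := fun j hj => key i j hj.symm (Nat.pos_of_ne_zero hi)
      refine ⟨i, ?_⟩
      have h4 : a1 i = N := by
        rw [← h1]
        exact (Finset.sum_eq_single i (fun j _ hj => h3 j hj) fun h => absurd (Finset.mem_univ i) h).symm
      funext j
      by_cases hj : j = i
      · subst hj
        rw [Pi.single_eq_same, h4]
      · rw [Pi.single_eq_of_ne hj, h3 j hj]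
  obtain ⟨i, hi⟩ := hvert
  calc m ≤ F (Pi.single i N) := hv i
    _ = F a1 := by rw [hi]
    _ = F a0 := h2
    _ ≤ F a := hmin a ((hS a).2 ha)

end Vale.Agent.P248.H432.V5
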