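import Vale.Agent.P248.H432.V5.SDefs
import Vale.Agent.P248.H917.FGen
import Vale.Agent.P248.H432.PolarLaw

/-! P248: bodies fibred over a line (definitions in coordinates). -/

open MeasureTheory Set

namespace Vale.Agent.P248.H432.V5

open Vale.Agent.P254.H242 (yp xp sp HG)

variable {n q p : ℕ}

/-- a set of coordinate vectors as a set in Euclidean space -/
def EE (C : Set (Fin n → ℝ)) : Set (E n) := {z | WithLp.ofLp z ∈ C}

/-- the set with the fibres `r D`, `(y, r) ∈ H` -/
def CC (e : Fin n ≃ Fin q ⊕ Fin p) (H : Set ((Fin q → ℝ) × ℝ)) (D : Set (Fin p → ℝ)) :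
    Set (Fin n → ℝ) := {u | ∃ r, (yp e u, r) ∈ H ∧ ∃ w ∈ D, xp e u = r • w}

/-- `p + 1` linear functions with sum zero -/
noncomputable def el (x : Fin p → ℝ) : Fin (p + 1) → ℝ := Fin.cons (-∑ j, x j) x

/-- the simplex with the origin at the barycentric coordinates `a` (for `∑ a = 1`) -/
def Dl (a : Fin (p + 1) → ℝ) : Set (Fin p → ℝ) := {x | ∀ i, 0 ≤ el x i + a i}

end Vale.Agent.P248.H432.V5
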