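import Vale.Agent.P248.H432.V5.SCent
import Vale.Agent.P248.H432.V5.LSpec
import Vale.Agent.P248.H917.FExch

/-! P248: the exchange identity for fibres with Santaló point `0`. -/

open MeasureTheory Set
open scoped ENNReal

namespace Vale.Agent.P248.H432.V5

open Vale.Agent.P254.US (IsG ball isG_gauge)
open Vale.Agent.P254.H242 (yp xp sp fb HG HH)
open Vale.Agent.P248.H917 (Bd P0 IsExchange FibredBy Fbr exists_u0 hg_HH_fbr mem_HH
  exists_frame bd_frame mem_frame_sb mem_smul_iff near_sharp_at cn_pos vp_nonneg vp_fb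
  int_of_nb nb_of_int)

variable {n q p : ℕ}

theorem sant_bal {U : Set (E p)} (hU : IsConvexBody U) (hs : IsSantalo U) (a : Fin p → ℝ) :
    ∫⁻ x in P0 (frame 0 (sb p) ⁻¹' U), ENNReal.ofReal (∑ i, a i * x i) =
      ∫⁻ x in P0 (frame 0 (sb p) ⁻¹' U), ENNReal.ofReal (-∑ i, a i * x i) := by
  have h1 := centroid_balance (polarAt_body hU hs.1) a
  rw [hs.2, preimage_polarAt] at h1
  exact h1

/-- exchange in coordinates -/
theorem sant_exchange (e : Fin n ≃ Fin q ⊕ Fin p) {H : Set ((Fin q → ℝ) × ℝ)} (hH : HG H)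
    (hp : 1 ≤ p) {W W' : Set (Fin p → ℝ)} (hW : Bd W) (h0 : (0 : Fin p → ℝ) ∈ interior W)
    (hc : ∀ a : Fin p → ℝ, ∫⁻ x in P0 W, ENNReal.ofReal (∑ i, a i * x i) =
      ∫⁻ x in P0 W, ENNReal.ofReal (-∑ i, a i * x i)) (hW' : Bd W')
    (h0' : (0 : Fin p → ℝ) ∈ interior W') {z : Fin n → ℝ}
    (hz : z ∈ interior (fb e H (gauge W))) :
    Bd (fb e H (gauge W')) ∧ ∃ z' ∈ interior (fb e H (gauge W')),
      H917.vp W 0 * H917.vp (fb e H (gauge W')) z' ≤
        H917.vp W' 0 * H917.vp (fb e H (gauge W)) z := by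
  obtain ⟨hg, hb⟩ := isG_gauge hW h0
  obtain ⟨hg', hb'⟩ := isG_gauge hW' h0'
  have hK : Bd (fb e H (gauge W)) :=
    ⟨Vale.Agent.P254.H242.convex_fb e hH hg, Vale.Agent.P254.H242.compact_fb e hH hg, ⟨z, hz⟩⟩
  obtain ⟨z1, hz1, hz10, -, hv⟩ := san_cent e hH hp hW h0 hc hK hz
  have hn := nb_of_int e hg hp hz1 hz10
  have hz2 := int_of_nb e hg' hz10 hn
  refine ⟨⟨Vale.Agent.P254.H242.convex_fb e hH hg', Vale.Agent.P254.H242.compact_fb e hH hg',
    ⟨z1, hz2⟩⟩, z1, hz2, ?_⟩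
  have h1 := vp_fb e hH hp hW h0 hz10 hn
  have h2 := vp_fb e hH hp hW' h0' hz10 hn
  have h3 := mul_le_mul_of_nonneg_left hv (vp_nonneg W' 0)
  rw [h1] at h3
  rw [h2]
  linarith

/-- one fibre in coordinates -/
theorem fib_coord' {o : E (q + p)} {f : E q → E (q + p)} {g : E p → E (q + p)} {U : Set (E p)}
    {K : Set (E (q + p))} (hU : IsConvexBody U) (hU0 : (0 : E p) ∈ interior U)
    {b : Module.Basis (Fin (q + p)) ℝ (E (q + p))}
    (hb : ∀ (o : E (q + p)) (u : Fin (q + p) → ℝ),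
      frame o b u = o + f (WithLp.toLp 2 (yp finSumFinEquiv.symm u)) +
        g (WithLp.toLp 2 (xp finSumFinEquiv.symm u))) {y : Fin q → ℝ} {r : ℝ} (hr : 0 ≤ r)
    (h : {x | o + f (WithLp.toLp 2 y) + g x ∈ K} = (fun u => r • u) '' U) (x : Fin p → ℝ) :
    sp finSumFinEquiv.symm (y, x) ∈ frame o b ⁻¹' K ↔ gauge (frame 0 (sb p) ⁻¹' U) x ≤ r := by
  have hU' := bd_frame hU 0 (sb p)
  have h0 : (0 : Fin p → ℝ) ∈ interior (frame 0 (sb p) ⁻¹' U) := frame_preimage_zero hU0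
  have hmem : sp finSumFinEquiv.symm (y, x) ∈ frame o b ⁻¹' K ↔
      WithLp.toLp 2 x ∈ {x | o + f (WithLp.toLp 2 y) + g x ∈ K} := by
    show frame o b (sp finSumFinEquiv.symm (y, x)) ∈ K ↔ _
    rw [hb, Vale.Agent.P254.H242.yp_sp, Vale.Agent.P254.H242.xp_sp]
    rfl
  rw [hmem, h, ← mem_smul_iff hU' h0 hr x]
  constructor
  · rintro ⟨u, hu, h2⟩
    refine ⟨u.ofLp, mem_frame_sb.2 hu, ?_⟩
    funext i
    have h3 := congrArg (fun v : E p => v i) h2
    simpa using h3.symm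
  · rintro ⟨u, hu, rfl⟩
    refine ⟨WithLp.toLp 2 u, mem_frame_sb.1 hu, ?_⟩
    ext i
    simp

/-- the volume product of a body with Santaló point `0` in coordinates -/
theorem vP_sant {W : Set (E p)} (hW : IsConvexBody W) (hs : IsSantalo W) :
    volumeProduct W = ENNReal.ofReal (H917.vp (frame 0 (sb p) ⁻¹' W) 0) := by
  have hW' := CB_frame hW 0 (sb p)
  have h0 : (0 : Fin p → ℝ) ∈ interior (frame 0 (sb p) ⁻¹' W) := frame_preimage_zero hs.1
  have h0P : (0 : Fin p → ℝ) ∈ interior (polarP (frame 0 (sb p) ⁻¹' W) 0) :=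
    mem_interior_iff_mem_nhds.2 (polarP_mem_nhds hW'.cpt.isBounded 0)
  rw [volumeProduct_eq_vp W 0 (sb p)]
  have h1 := vp_polar (hW'.polar h0) h0P (sant_bal hW hs)
  rw [bipolar hW'.cpt.isClosed hW'.cvx (interior_subset h0)] at h1
  rw [h1]
  unfold H917.vp
  rw [ENNReal.ofReal_mul ENNReal.toReal_nonneg,
    ENNReal.ofReal_toReal hW'.vol_ne_top,
    ENNReal.ofReal_toReal (polarP_isBounded h0).measure_lt_top.ne, mul_comm]

theorem exch_le' (hp : 1 ≤ p) {U W : Set (E p)} {K K' : Set (E n)} (hU : IsConvexBody U)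
    (hsU : IsSantalo U) (hW : IsConvexBody W) (hsW : IsSantalo W) (hK : IsConvexBody K)
    (hX : IsExchange q U W K K') : IsConvexBody K' ∧
      volumeProduct U * volumeProduct K' ≤ volumeProduct W * volumeProduct K := by
  obtain ⟨rfl, o, f, g, hf, hg, hs, hfib⟩ := hX
  obtain ⟨b, hb⟩ := exists_frame hf hg hs
  have hU' := bd_frame hU 0 (sb p)
  have hU0 : (0 : Fin p → ℝ) ∈ interior (frame 0 (sb p) ⁻¹' U) := frame_preimage_zero hsU.1
  have hW' := bd_frame hW 0 (sb p)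
  have hW0 : (0 : Fin p → ℝ) ∈ interior (frame 0 (sb p) ⁻¹' W) := frame_preimage_zero hsW.1
  have hS := bd_frame hK o b
  have hbal := sant_bal hU hsU
  set e : Fin (q + p) ≃ Fin q ⊕ Fin p := finSumFinEquiv.symm with he
  set U' := frame 0 (sb p) ⁻¹' U with hU'd
  set W' := frame 0 (sb p) ⁻¹' W with hW'd
  set S := frame o b ⁻¹' K with hSd
  -- common radii
  have hrad : ∀ y : Fin q → ℝ,
      ((∀ x, sp e (y, x) ∉ S) ∧ ∀ x, sp e (y, x) ∉ frame o b ⁻¹' K') ∨
        ∃ r : ℝ, 0 ≤ r ∧ (∀ x, sp e (y, x) ∈ S ↔ gauge U' x ≤ r) ∧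
          ∀ x, sp e (y, x) ∈ frame o b ⁻¹' K' ↔ gauge W' x ≤ r := by
    intro y
    rcases hfib (WithLp.toLp 2 y) with ⟨h1, h2⟩ | ⟨r, hr, h1, h2⟩
    · have key : ∀ L : Set (E (q + p)), {x | o + f (WithLp.toLp 2 y) + g x ∈ L} = ∅ →
          ∀ x, sp e (y, x) ∉ frame o b ⁻¹' L := by
        intro L hL x hx
        have h3 : WithLp.toLp 2 x ∈ {x | o + f (WithLp.toLp 2 y) + g x ∈ L} := by
          rw [mem_preimage, hb, Vale.Agent.P254.H242.yp_sp, Vale.Agent.P254.H242.xp_sp] at hx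
          exact hx
        rw [hL] at h3
        exact h3
      exact Or.inl ⟨key K h1, key K' h2⟩
    · exact Or.inr ⟨r, hr, fib_coord' hU hsU.1 hb hr h1, fib_coord' hW hsW.1 hb hr h2⟩
  have hFb : Fbr e U' S := by
    intro y
    rcases hrad y with ⟨h1, -⟩ | ⟨r, hr, h1, -⟩
    · left
      ext x
      exact ⟨fun h => h1 x h, fun h => absurd h (notMem_empty _)⟩
    · right
      exact ⟨r, hr, Set.ext h1⟩
  obtain ⟨hgU, hbU⟩ := isG_gauge hU' hU0
  obtain ⟨hgW, hbW⟩ := isG_gauge hW' hW0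
  obtain ⟨u, hu, hu0⟩ := exists_u0 hp hgU
  have hH := hg_HH_fbr hS hgU hFb hu hu0
  have hKe : fb e (HH e S u) (gauge U') = S := by
    ext x
    show (yp e x, gauge U' (xp e x)) ∈ HH e S u ↔ x ∈ S
    rw [mem_HH hgU hFb hu, Vale.Agent.P254.H242.sp_yx]
  have hKe' : fb e (HH e S u) (gauge W') = frame o b ⁻¹' K' := by
    ext x
    have hx : x = sp e (yp e x, xp e x) := (Vale.Agent.P254.H242.sp_yx e x).symm
    show (0 ≤ gauge W' (xp e x) ∧ sp e (yp e x, gauge W' (xp e x) • u) ∈ S) ↔ x ∈ _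
    have hnn : 0 ≤ gauge W' (xp e x) := gauge_nonneg _
    rcases hrad (yp e x) with ⟨h1, h2⟩ | ⟨r, hr, h1, h2⟩
    · constructor
      · rintro ⟨-, h3⟩
        exact absurd h3 (h1 _)
      · intro h3
        rw [hx] at h3
        exact absurd h3 (h2 _)
    · rw [h1, hgU.smul _ hnn, hu, mul_one]
      constructor
      · rintro ⟨-, h3⟩
        rw [hx]
        exact (h2 _).2 h3
      · intro h3
        rw [hx] at h3
        exact ⟨hnn, (h2 _).1 h3⟩
  have hne : ∃ z, z ∈ interior S := hS.2.2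
  have hex : ∀ z ∈ interior S, Bd (frame o b ⁻¹' K') ∧ ∃ z' ∈ interior (frame o b ⁻¹' K'),
      H917.vp U' 0 * H917.vp (frame o b ⁻¹' K') z' ≤ H917.vp W' 0 * H917.vp S z := by
    intro z hz
    rw [← hKe] at hz
    have h1 := sant_exchange e hH hp hU' hU0 hbal hW' hW0 hz
    rw [hKe, hKe'] at h1
    exact h1
  obtain ⟨z0, hz0⟩ := hne
  have hS' := (hex z0 hz0).1
  have hK' : IsConvexBody K' := body_of_CB (p := o) (b := b) ⟨hS'.2.1, hS'.1, hS'.2.2⟩
  refine ⟨hK', ?_⟩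
  have hWpos : 0 < H917.vp W' 0 :=
    lt_of_lt_of_le (mul_pos (Real.exp_pos _) (cn_pos p)) (near_sharp_at hW' hW0)
  have hPW := vP_sant hW hsW
  have hW1 : volumeProduct W ≠ 0 := by
    rw [hPW, Ne, ENNReal.ofReal_eq_zero, not_le]
    exact hWpos
  have hW2 : volumeProduct W ≠ ⊤ := volumeProduct_ne_top hW
  have h1 : volumeProduct U * volumeProduct K' / volumeProduct W ≤ volumeProduct K := by
    rw [volumeProduct_eq_vp K o b]
    refine le_iInf₂ fun z hz => ENNReal.div_le_of_le_mul ?_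
    obtain ⟨-, z', hz', h2⟩ := hex z hz
    have h3 : volumeProduct K' ≤ ENNReal.ofReal (H917.vp (frame o b ⁻¹' K') z') := by
      rw [volumeProduct_eq_vp K' o b]
      refine (iInf₂_le z' hz').trans ?_
      unfold H917.vp
      rw [ENNReal.ofReal_mul ENNReal.toReal_nonneg,
        ENNReal.ofReal_toReal hS'.2.1.measure_lt_top.ne,
        ENNReal.ofReal_toReal (polarP_isBounded hz').measure_lt_top.ne]
    have h4 : ENNReal.ofReal (H917.vp S z) ≤ volume S * volume (polarP S z) := by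
      unfold H917.vp
      rw [ENNReal.ofReal_mul ENNReal.toReal_nonneg]
      exact mul_le_mul' ENNReal.ofReal_toReal_le ENNReal.ofReal_toReal_le
    calc volumeProduct U * volumeProduct K'
        ≤ ENNReal.ofReal (H917.vp U' 0) * ENNReal.ofReal (H917.vp (frame o b ⁻¹' K') z') :=
          mul_le_mul' (vP_sant hU hsU).le h3
      _ = ENNReal.ofReal (H917.vp U' 0 * H917.vp (frame o b ⁻¹' K') z') :=
          (ENNReal.ofReal_mul (vp_nonneg _ _)).symm
      _ ≤ ENNReal.ofReal (H917.vp W' 0 * H917.vp S z) := ENNReal.ofReal_le_ofReal h2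
      _ = ENNReal.ofReal (H917.vp W' 0) * ENNReal.ofReal (H917.vp S z) :=
          ENNReal.ofReal_mul (vp_nonneg _ _)
      _ ≤ volumeProduct W * (volume S * volume (polarP S z)) :=
          mul_le_mul' hPW.symm.le h4
      _ = volume S * volume (polarP S z) * volumeProduct W := mul_comm _ _
  have h2 := (ENNReal.div_le_iff hW1 hW2).1 h1
  rwa [mul_comm (volumeProduct K)] at h2

/-- **the exchange identity** -/
theorem exch_sant (hp : 1 ≤ p) {U W : Set (E p)} {K K' : Set (E n)} (hU : IsConvexBody U)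
    (hsU : IsSantalo U) (hW : IsConvexBody W) (hsW : IsSantalo W) (hK : IsConvexBody K)
    (hX : IsExchange q U W K K') : IsConvexBody K' ∧
      volumeProduct K * volumeProduct W = volumeProduct K' * volumeProduct U := by
  obtain ⟨h1, h2⟩ := exch_le' hp hU hsU hW hsW hK hX
  obtain ⟨-, h3⟩ := exch_le' hp hW hsW hU hsU h1 hX.symm
  refine ⟨h1, le_antisymm ?_ ?_⟩
  · rw [mul_comm (volumeProduct K), mul_comm (volumeProduct K')]
    exact h3
  · rw [mul_comm (volumeProduct K), mul_comm (volumeProduct K')]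
    exact h2

/-- the exchanged body exists -/
theorem exists_exch (hp : 1 ≤ p) {U W : Set (E p)} {K : Set (E n)} (hU : IsConvexBody U)
    (h0 : (0 : E p) ∈ interior U) (hF : FibredBy q U K) :
    ∃ K', IsExchange q U W K K' := by
  obtain ⟨rfl, o, f, g, hf, hg, hs, hfib⟩ := hF
  obtain ⟨b, hb⟩ := exists_frame hf hg hs
  have hU' := bd_frame hU 0 (sb p)
  have hU0 : (0 : Fin p → ℝ) ∈ interior (frame 0 (sb p) ⁻¹' U) := frame_preimage_zero h0
  obtain ⟨hgU, hbU⟩ := isG_gauge hU' hU0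
  obtain ⟨u, hu, hu0⟩ := exists_u0 hp hgU
  -- uniqueness of the coordinates
  have hinj : ∀ y y' : E q, ∀ x x' : E p, f y + g x = f y' + g x' → y = y' ∧ x = x' := by
    intro y y' x x' h
    have h1 : frame 0 b (sp finSumFinEquiv.symm (y.ofLp, x.ofLp)) =
        frame 0 b (sp finSumFinEquiv.symm (y'.ofLp, x'.ofLp)) := by
      rw [hb, hb, Vale.Agent.P254.H242.yp_sp, Vale.Agent.P254.H242.xp_sp,
        Vale.Agent.P254.H242.yp_sp, Vale.Agent.P254.H242.xp_sp, add_assoc, add_assoc]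
      exact congrArg (fun v => 0 + v) h
    unfold frame at h1
    have h2 := b.equivFun.symm.injective (add_left_cancel h1)
    have h3 := congrArg (fun v => yp finSumFinEquiv.symm v) h2
    have h4 := congrArg (fun v => xp finSumFinEquiv.symm v) h2
    simp only [Vale.Agent.P254.H242.yp_sp, Vale.Agent.P254.H242.xp_sp] at h3 h4
    exact ⟨by ext i; exact congrFun h3 i, by ext i; exact congrFun h4 i⟩
  -- uniqueness of the radii
  have hrun : ∀ (y : E q) (r r' : ℝ), 0 ≤ r → 0 ≤ r' →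
      {x | o + f y + g x ∈ K} = (fun u => r • u) '' U →
      {x | o + f y + g x ∈ K} = (fun u => r' • u) '' U → r ≤ r' := by
    intro y r r' hr hr' h1 h2
    have e1 := fib_coord' (y := y.ofLp) hU h0 hb hr h1 (r • u)
    have e2 := fib_coord' (y := y.ofLp) hU h0 hb hr' h2 (r • u)
    rw [hgU.smul r hr, hu, mul_one] at e1 e2
    exact e2.1 (e1.2 le_rfl)
  refine ⟨{z | ∃ (y : E q) (x : E p) (r : ℝ), z = o + f y + g x ∧ 0 ≤ r ∧
    {x | o + f y + g x ∈ K} = (fun u => r • u) '' U ∧ x ∈ (fun w => r • w) '' W},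
    rfl, o, f, g, hf, hg, hs, fun y => ?_⟩
  rcases hfib y with h1 | ⟨r, hr, h1⟩
  · refine Or.inl ⟨h1, ?_⟩
    ext x
    simp only [mem_ofPred_eq, mem_empty_iff_false, iff_false]
    rintro ⟨y', x', r, h2, hr, h3, -⟩
    rw [add_assoc, add_assoc] at h2
    obtain ⟨rfl, rfl⟩ := hinj _ _ _ _ (add_left_cancel h2)
    rw [h1] at h3
    have h4 : r • (0 : E p) ∈ (fun u => r • u) '' U := ⟨0, interior_subset h0, rfl⟩
    rw [← h3] at h4
    exact h4
  · refine Or.inr ⟨r, hr, h1, ?_⟩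
    ext x
    constructor
    · rintro ⟨y', x', r', h2, hr', h3, h4⟩
      rw [add_assoc, add_assoc] at h2
      obtain ⟨rfl, rfl⟩ := hinj _ _ _ _ (add_left_cancel h2)
      have e : r' = r := le_antisymm (hrun _ _ _ hr' hr h3 h1) (hrun _ _ _ hr hr' h1 h3)
      rw [← e]
      exact h4
    · intro h2
      exact ⟨y, x, r, rfl, hr, h1, h2⟩

end Vale.Agent.P248.H432.V5
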