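import Vale.Agent.P248.H432.V5.Grid
import Vale.Agent.P248.H432.V5.G1
import Vale.Agent.P248.H432.V5.G2
import Vale.Agent.P248.H432.V5.G3
import Vale.Agent.P248.H432.V5.G6
import Vale.Agent.P248.H432.V5.G6a
import Vale.Agent.P248.H432.V5.SExch

/-! P248: bodies with homothetic fibres over a line. -/

open MeasureTheory Set
open scoped ENNReal

namespace Vale.Agent.P248.H432.V5

open Vale.Agent.P254.US (IsG ball isG_gauge)
open Vale.Agent.P254.H242 (yp xp sp fb HG HH)
open Vale.Agent.P248.H917 (Bd P0 IsExchange FibredBy IsFibration Fbr exists_u0 hg_HH_fbr mem_HH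
  exists_frame bd_frame mem_frame_sb le_zero_iff)

variable {n q p : ℕ}

theorem preimage_EE (C : Set (Fin n → ℝ)) : frame 0 (sb n) ⁻¹' (EE C) = C := by
  ext x
  rw [mem_frame_sb]
  exact Iff.rfl

/-! ### the simplices -/

theorem el_add (x y : Fin p → ℝ) (k : Fin (p + 1)) : el (x + y) k = el x k + el y k := by
  refine Fin.cases ?_ (fun j => ?_) k
  · simp only [el, Fin.cons_zero, Pi.add_apply, Finset.sum_add_distrib]
    ring
  · simp only [el, Fin.cons_succ, Pi.add_apply]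

theorem el_neg (x : Fin p → ℝ) (k : Fin (p + 1)) : el (-x) k = -el x k := by
  refine Fin.cases ?_ (fun j => ?_) k
  · simp only [el, Fin.cons_zero, Pi.neg_apply, Finset.sum_neg_distrib]
  · simp only [el, Fin.cons_succ, Pi.neg_apply]

theorem el_zero (k : Fin (p + 1)) : el (0 : Fin p → ℝ) k = 0 := by
  refine Fin.cases ?_ (fun j => ?_) k
  · simp [el]
  · simp [el]

/-- the edge vectors of the simplex -/
noncomputable def dv (p : ℕ) (i j : Fin (p + 1)) : Fin p → ℝ := fun k =>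
  ((if k.succ = i then 1 else 0) - (if k.succ = j then 1 else 0)) / ((p : ℝ) + 1)

theorem el_dv (i j k : Fin (p + 1)) : el (dv p i j) k =
    ((if k = i then 1 else 0) - (if k = j then 1 else 0)) / ((p : ℝ) + 1) := by
  refine Fin.cases ?_ (fun l => ?_) k
  · simp only [el, Fin.cons_zero, dv]
    have key : ∀ i : Fin (p + 1), ∑ k : Fin p, (if k.succ = i then (1 : ℝ) else 0) =
        1 - if (0 : Fin (p + 1)) = i then 1 else 0 := by
      intro i
      have h1 : ∑ k : Fin (p + 1), (if k = i then (1 : ℝ) else 0) = 1 := by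
        rw [Finset.sum_ite_eq']
        simp
      rw [Fin.sum_univ_succ] at h1
      linarith
    rw [← Finset.sum_div, Finset.sum_sub_distrib, key, key]
    ring
  · simp only [el, Fin.cons_succ, dv]

theorem dv_ne {i j : Fin (p + 1)} (h : i ≠ j) : dv p i j ≠ 0 := by
  intro h0
  have h1 := el_dv (p := p) i j i
  rw [h0, el_zero, if_pos rfl, if_neg h] at h1
  have : (0 : ℝ) < ((1 : ℝ) - 0) / ((p : ℝ) + 1) := by positivity
  linarith

/-- the grid weights -/
noncomputable def gw (a : Fin (p + 1) → ℕ) : Fin (p + 1) → ℝ := fun i => (a i : ℝ) / ((p : ℝ) + 1)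

theorem gw_nonneg (a : Fin (p + 1) → ℕ) (i : Fin (p + 1)) : 0 ≤ gw a i := by
  unfold gw
  positivity

theorem gw_sum {a : Fin (p + 1) → ℕ} (h : ∑ k, a k = p + 1) : ∑ i, gw a i = 1 := by
  unfold gw
  rw [← Finset.sum_div]
  have : (∑ i, (a i : ℝ)) = (p : ℝ) + 1 := by exact_mod_cast h
  rw [this]
  exact div_self (by positivity)

theorem gw_move {a b : Fin (p + 1) → ℕ} {i j : Fin (p + 1)}
    (h : b + Pi.single j 1 = a + Pi.single i 1) (k : Fin (p + 1)) :
    gw b k = el (dv p i j) k + gw a k := by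
  have h1 := congrFun h k
  simp only [Pi.add_apply, Pi.single_apply] at h1
  have h2 : (b k : ℝ) + (if k = j then 1 else 0) = a k + (if k = i then 1 else 0) := by
    exact_mod_cast h1
  rw [el_dv]
  unfold gw
  rw [← add_div]
  congr 1
  linarith

theorem dl_move {a b : Fin (p + 1) → ℕ} {i j : Fin (p + 1)}
    (h : b + Pi.single j 1 = a + Pi.single i 1) :
    {x | x + dv p i j ∈ Dl (gw a)} = Dl (gw b) := by
  ext x
  show (∀ k, 0 ≤ el (x + dv p i j) k + gw a k) ↔ ∀ k, 0 ≤ el x k + gw b k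
  refine forall_congr' fun k => ?_
  rw [el_add, gw_move h k, add_assoc]

theorem dv_swap (i j : Fin (p + 1)) : dv p j i = -dv p i j := by
  funext k
  simp only [dv, Pi.neg_apply]
  ring

theorem cc_grid (e : Fin n ≃ Fin 1 ⊕ Fin p) {H : Set ((Fin 1 → ℝ) × ℝ)} (hH : HG H)
    (hHi : (interior H).Nonempty) (a : Fin (p + 1) → ℕ) (ha : ∑ k, a k = p + 1) :
    1 ≤ mahlerRatio (EE (CC e H (Dl (gw a)))) := by
  have body : ∀ a : Fin (p + 1) → ℕ, ∑ k, a k = p + 1 → IsConvexBody (EE (CC e H (Dl (gw a)))) := by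
    intro a ha
    obtain ⟨h1, h2, -, h4⟩ := dl_body (gw_nonneg a) (gw_sum ha)
    exact cc_body e hH hHi h1 h2 h4
  refine grid (N := p + 1) (F := fun a => mahlerRatio (EE (CC e H (Dl (gw a))))) ?_ ?_ a ha
  · intro a b c i j hij ha hb hc
    have sb' : ∑ k, b k = p + 1 := by
      have h5 := congrArg (fun f : Fin (p + 1) → ℕ => ∑ k, f k) hb
      simp only [Pi.add_apply, Finset.sum_add_distrib, Finset.sum_pi_single', Finset.mem_univ,
        if_true] at h5
      omega
    have sc' : ∑ k, c k = p + 1 := by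
      have h5 := congrArg (fun f : Fin (p + 1) → ℕ => ∑ k, f k) hc
      simp only [Pi.add_apply, Finset.sum_add_distrib, Finset.sum_pi_single', Finset.mem_univ,
        if_true] at h5
      omega
    obtain ⟨-, h2, -, -⟩ := dl_body (gw_nonneg a) (gw_sum ha)
    have hb1 : dv p i j ∈ Dl (gw a) := by
      intro k
      rw [← gw_move hb k]
      exact gw_nonneg b k
    have hc1 : -dv p i j ∈ Dl (gw a) := by
      intro k
      rw [← dv_swap, ← gw_move hc k]
      exact gw_nonneg c k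
    have h3 := cc_sum e hH h2 (dv_ne hij) hb1 hc1
    have e2 : {x | x - dv p i j ∈ Dl (gw a)} = Dl (gw c) := by
      rw [← dl_move hc]
      ext x
      rw [dv_swap, mem_ofPred_eq, mem_ofPred_eq, sub_eq_add_neg, neg_neg]
    rw [dl_move hb, e2] at h3
    exact (h3.law (body b sb') (body c sc')).2
  · intro i
    have e1 : gw (Pi.single i (p + 1) : Fin (p + 1) → ℕ) = Pi.single i 1 := by
      funext k
      unfold gw
      by_cases hk : k = i
      · subst hk
        rw [Pi.single_eq_same, Pi.single_eq_same]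
        push_cast
        exact div_self (by positivity)
      · rw [Pi.single_eq_of_ne hk, Pi.single_eq_of_ne hk]
        simp
    have h1 := body (Pi.single i (p + 1)) (by simp)
    show 1 ≤ mahlerRatio (EE (CC e H (Dl (gw (Pi.single i (p + 1))))))
    rw [e1] at h1 ⊢
    rw [one_le_ratio_iff]
    exact (lab_full h1 (cc_vertex e hH (hHi.mono interior_subset) i)).1

/-- the centred simplex -/
def Wd (p : ℕ) : Set (E p) := EE (Dl (fun _ : Fin (p + 1) => 1 / ((p : ℝ) + 1)))

theorem cc_centre (e : Fin n ≃ Fin 1 ⊕ Fin p) {H : Set ((Fin 1 → ℝ) × ℝ)} (hH : HG H)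
    (hHi : (interior H).Nonempty) :
    1 ≤ mahlerRatio (EE (CC e H (Dl (fun _ : Fin (p + 1) => 1 / ((p : ℝ) + 1))))) := by
  have h1 := cc_grid e hH hHi (fun _ => 1) (by simp)
  have e1 : gw (fun _ : Fin (p + 1) => 1) = fun _ => 1 / ((p : ℝ) + 1) := by
    funext k
    unfold gw
    simp
  rwa [e1] at h1

/-! ### coordinates of a fibred body -/

theorem fb_eq_cc (e : Fin n ≃ Fin q ⊕ Fin p) {H : Set ((Fin q → ℝ) × ℝ)} (hH : HG H)
    {D : Set (Fin p → ℝ)} (hD : Bd D) (h0 : (0 : Fin p → ℝ) ∈ interior D) :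
    fb e H (gauge D) = CC e H D := by
  obtain ⟨hg, hb⟩ := isG_gauge hD h0
  ext u
  constructor
  · intro hu
    have hr : 0 ≤ gauge D (xp e u) := hg.nonneg _
    refine ⟨gauge D (xp e u), hu, ?_⟩
    rcases hr.eq_or_lt with h1 | h1
    · refine ⟨0, interior_subset h0, ?_⟩
      rw [smul_zero]
      exact (le_zero_iff hg _).1 h1.symm.le
    · refine ⟨(gauge D (xp e u))⁻¹ • xp e u, ?_, ?_⟩
      · have h2 : (gauge D (xp e u))⁻¹ • xp e u ∈ ball (gauge D) := by
          show gauge D _ ≤ 1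
          rw [hg.smul _ (inv_nonneg.2 hr), inv_mul_cancel₀ h1.ne']
        rwa [hb] at h2
      · rw [smul_inv_smul₀ h1.ne']
  · rintro ⟨r, hr, w, hw, hx⟩
    have hr0 := hH.nn _ _ hr
    have h1 : gauge D w ≤ 1 := by rw [← hb] at hw; exact hw
    show (yp e u, gauge D (xp e u)) ∈ H
    refine hH.down _ _ _ hr (hg.nonneg _) ?_
    rw [hx, hg.smul _ hr0]
    nlinarith

theorem smul_image {D : Set (Fin p → ℝ)} (hD : Bd D) (h0 : (0 : Fin p → ℝ) ∈ interior D) {r : ℝ}
    (hr : 0 ≤ r) (x : Fin p → ℝ) : (∃ w ∈ D, x = r • w) ↔ gauge D x ≤ r := by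
  obtain ⟨hg, hb⟩ := isG_gauge hD h0
  constructor
  · rintro ⟨w, hw, rfl⟩
    have h1 : gauge D w ≤ 1 := by rw [← hb] at hw; exact hw
    rw [hg.smul _ hr]
    nlinarith
  · intro h
    rcases hr.eq_or_lt with h1 | h1
    · subst h1
      exact ⟨0, interior_subset h0, by rw [smul_zero]; exact (le_zero_iff hg _).1 h⟩
    · refine ⟨r⁻¹ • x, ?_, by rw [smul_inv_smul₀ h1.ne']⟩
      have h2 : r⁻¹ • x ∈ ball (gauge D) := by
        show gauge D _ ≤ 1
        rw [hg.smul _ (inv_nonneg.2 hr), inv_mul_le_iff₀ h1, mul_one]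
        exact h
      rwa [hb] at h2

theorem cc_of_fibred (hp : 1 ≤ p) {K : Set (E n)} (hK : IsConvexBody K) {D : Set (Fin p → ℝ)}
    (hD : Bd D) (h0 : (0 : Fin p → ℝ) ∈ interior D) (hF : FibredBy q (EE D) K) :
    ∃ (e : Fin n ≃ Fin q ⊕ Fin p) (H : Set ((Fin q → ℝ) × ℝ)), HG H ∧ (interior H).Nonempty ∧
      volumeProduct K = volumeProduct (EE (CC e H D)) := by
  obtain ⟨rfl, o, f, g, hF⟩ := hF
  obtain ⟨b, hb⟩ := exists_frame hF.1 hF.2.1 hF.2.2.1
  have hS := bd_frame hK o b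
  set e : Fin (q + p) ≃ Fin q ⊕ Fin p := finSumFinEquiv.symm with he
  set S := frame o b ⁻¹' K with hSd
  obtain ⟨hg, hbl⟩ := isG_gauge hD h0
  have hmem : ∀ (y : Fin q → ℝ) (x : Fin p → ℝ), sp e (y, x) ∈ S ↔
      WithLp.toLp 2 x ∈ {x | o + f (WithLp.toLp 2 y) + g x ∈ K} := by
    intro y x
    rw [hSd, mem_preimage, hb, Vale.Agent.P254.H242.yp_sp, Vale.Agent.P254.H242.xp_sp]
    exact Iff.rfl
  have hFb : Fbr e D S := by
    intro y
    rcases hF.2.2.2 (WithLp.toLp 2 y) with h | ⟨r, hr, h⟩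
    · left
      ext x
      show sp e (y, x) ∈ S ↔ _
      rw [hmem, h]
      exact Iff.rfl
    · right
      refine ⟨r, hr, ?_⟩
      ext x
      show sp e (y, x) ∈ S ↔ gauge D x ≤ r
      rw [hmem, h, ← smul_image hD h0 hr]
      constructor
      · rintro ⟨w, hw, hx⟩
        exact ⟨WithLp.ofLp w, hw, congrArg WithLp.ofLp hx.symm⟩
      · rintro ⟨w, hw, hx⟩
        exact ⟨WithLp.toLp 2 w, hw, by rw [hx]; rfl⟩
  obtain ⟨u, hu, hu0⟩ := exists_u0 hp hg
  have hH := hg_HH_fbr hS hg hFb hu hu0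
  have hKe : fb e (HH e S u) (gauge D) = S := by
    ext x
    show (yp e x, gauge D (xp e x)) ∈ HH e S u ↔ x ∈ S
    rw [mem_HH hg hFb hu, Vale.Agent.P254.H242.sp_yx]
  refine ⟨e, HH e S u, hH, ?_, ?_⟩
  · obtain ⟨z, hz⟩ := hS.2.2
    obtain ⟨ε, hε, hball⟩ := Metric.mem_nhds_iff.1 (mem_interior_iff_mem_nhds.1 hz)
    -- a point with nonzero second component
    obtain ⟨x', hx'0, hx'⟩ : ∃ x' : Fin p → ℝ, x' ≠ 0 ∧ ‖x' - xp e z‖ < ε := by
      by_cases h : xp e z = 0
      · refine ⟨fun _ => ε / 2, fun h1 => ?_, ?_⟩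
        · have := congrFun h1 ⟨0, hp⟩
          simp only [Pi.zero_apply] at this
          linarith
        · rw [h, sub_zero]
          have : Nonempty (Fin p) := ⟨⟨0, hp⟩⟩
          rw [pi_norm_const, Real.norm_eq_abs, abs_of_pos (by positivity)]
          linarith
      · exact ⟨xp e z, h, by simpa using hε⟩
    have hgx : 0 < gauge D x' := by
      by_contra h
      exact hx'0 ((le_zero_iff hg _).1 (not_lt.1 h))
    have hin : ∀ y : Fin q → ℝ, ‖y - yp e z‖ < ε → (y, gauge D x') ∈ HH e S u := by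
      intro y hy
      rw [mem_HH hg hFb hu]
      apply hball
      rw [mem_ball_iff_norm]
      refine (pi_norm_lt_iff hε).2 fun i => ?_
      obtain ⟨s, rfl⟩ := e.symm.surjective i
      rcases s with j | j
      · rw [Pi.sub_apply, Vale.Agent.P254.H242.sp_inl]
        exact (norm_le_pi_norm (y - yp e z) j).trans_lt hy
      · rw [Pi.sub_apply, Vale.Agent.P254.H242.sp_inr]
        exact (norm_le_pi_norm (x' - xp e z) j).trans_lt hx'
    have c1 : Continuous fun v : (Fin q → ℝ) × ℝ => ‖v.1 - yp e z‖ :=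
      (continuous_fst.sub continuous_const).norm
    have hO : IsOpen {v : (Fin q → ℝ) × ℝ | ‖v.1 - yp e z‖ < ε ∧ 0 < v.2 ∧ v.2 < gauge D x'} :=
      (isOpen_lt c1 continuous_const).inter
        ((isOpen_lt continuous_const continuous_snd).inter
          (isOpen_lt continuous_snd continuous_const))
    refine ⟨(yp e z, gauge D x' / 2), interior_maximal (fun v hv => ?_) hO ?_⟩
    · exact hH.down _ _ _ (hin v.1 hv.1) hv.2.1.le hv.2.2.le
    · refine ⟨by simpa using hε, by positivity, by show gauge D x' / 2 < gauge D x'; linarith⟩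
  · rw [volumeProduct_eq_vp K o b, volumeProduct_eq_vp (EE _) 0 (sb (q + p)), preimage_EE,
      ← fb_eq_cc e hH hD h0, hKe]

theorem dl_zero (p : ℕ) :
    (0 : Fin p → ℝ) ∈ interior (Dl (fun _ : Fin (p + 1) => 1 / ((p : ℝ) + 1))) := by
  have h1 := (w_santalo p).1
  have h2 : (0 : Fin p → ℝ) ∈ frame 0 (sb p) ⁻¹' interior (Wd p) := by
    rw [mem_frame_sb]
    exact h1
  rw [← frame_preimage_interior] at h2
  have h3 : frame 0 (sb p) ⁻¹' Wd p = Dl (fun _ : Fin (p + 1) => 1 / ((p : ℝ) + 1)) := preimage_EE _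
  rwa [h3] at h2

theorem dl_bd (p : ℕ) : Bd (Dl (fun _ : Fin (p + 1) => 1 / ((p : ℝ) + 1))) := by
  obtain ⟨h1, h2, -, h4⟩ := dl_body (a := fun _ : Fin (p + 1) => 1 / ((p : ℝ) + 1))
    (fun _ => by positivity) (by
      rw [Finset.sum_const, Finset.card_univ, Fintype.card_fin, nsmul_eq_mul]
      push_cast
      field_simp)
  exact ⟨h2, h1, h4⟩

theorem wd_body (p : ℕ) : IsConvexBody (Wd p) := by
  have h := dl_bd p
  refine body_of_CB (p := 0) (b := sb p) ?_
  have h3 : frame 0 (sb p) ⁻¹' Wd p = Dl (fun _ : Fin (p + 1) => 1 / ((p : ℝ) + 1)) := preimage_EE _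
  rw [h3]
  exact ⟨h.2.1, h.1, h.2.2⟩

/-- **bodies with homothetic parallel hyperplane sections** -/
theorem line_law (hp : 1 ≤ p) {U : Set (E p)} {K : Set (E n)} (hU : IsConvexBody U)
    (hsU : IsSantalo U) (hK : IsConvexBody K) (hF : FibredBy 1 U K) :
    mahlerRatio U ≤ mahlerRatio K := by
  obtain ⟨K', hX⟩ := exists_exch hp (W := Wd p) hU hsU.1 hF
  obtain ⟨hK', h1⟩ := exch_sant hp hU hsU (wd_body p) (w_santalo p) hK hX
  have hF' : FibredBy 1 (Wd p) K' := by
    obtain ⟨hn, o, f, g, hf, hg, hs, h⟩ := hX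
    refine ⟨hn, o, f, g, hf, hg, hs, fun y => ?_⟩
    rcases h y with ⟨-, h2⟩ | ⟨r, hr, -, h2⟩
    · exact Or.inl h2
    · exact Or.inr ⟨r, hr, h2⟩
  obtain ⟨e, H, hH, hHi, hv⟩ := cc_of_fibred hp hK' (dl_bd p) (dl_zero p) hF'
  have h2 : 1 ≤ mahlerRatio K' := by
    have h3 := cc_centre e hH hHi
    unfold mahlerRatio at h3 ⊢
    rwa [hv]
  have hW : volumeProduct (Wd p) = ENNReal.ofReal (simplexVal p) := (w_simplex p).volumeProduct_eq
  rw [hW, volumeProduct_eq_ratio K, volumeProduct_eq_ratio K', volumeProduct_eq_ratio U] at h1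
  have hp0 := ofReal_sv_ne_zero p
  have hn0 := ofReal_sv_ne_zero n
  have h3 : mahlerRatio K = mahlerRatio K' * mahlerRatio U := by
    have h4 : (ENNReal.ofReal (simplexVal n) * ENNReal.ofReal (simplexVal p)) * mahlerRatio K =
        (ENNReal.ofReal (simplexVal n) * ENNReal.ofReal (simplexVal p)) *
          (mahlerRatio K' * mahlerRatio U) := by
      calc _ = mahlerRatio K * ENNReal.ofReal (simplexVal n) *
            ENNReal.ofReal (simplexVal p) := by ring
        _ = _ := h1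
        _ = _ := by ring
    exact (ENNReal.mul_right_inj (mul_ne_zero hn0 hp0)
      (ENNReal.mul_ne_top ENNReal.ofReal_ne_top ENNReal.ofReal_ne_top)).1 h4
  rw [h3]
  calc mahlerRatio U = 1 * mahlerRatio U := (one_mul _).symm
    _ ≤ _ := mul_le_mul' h2 le_rfl

end Vale.Agent.P248.H432.V5
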