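import Vale.Agent.P248.H432.V5.SDefs
import Vale.Agent.P248.H917.FGen
import Vale.Agent.P248.H432.PolarLaw

/-! P248: the fibre sets over a base are balanced when the fibre is balanced. -/

open MeasureTheory Set
open scoped ENNReal

namespace Vale.Agent.P248.H432.V5

open Vale.Agent.P254.US (IsG ball isG_gauge)
open Vale.Agent.P254.H242 (yp xp sp fb HG HH yp_sp xp_sp)
open Vale.Agent.P248.H917 (Bd P0 IsExchange FibredBy)

variable {n q p : ℕ}

/-- scaling of the integral of a function homogeneous of degree one -/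
theorem setl_scale {g : (Fin p → ℝ) → ℝ} (hg : IsG g) {f : (Fin p → ℝ) → ℝ≥0∞}
    (hf : Measurable f) (hfs : ∀ r : ℝ, 0 < r → ∀ x, f (r • x) = ENNReal.ofReal r * f x)
    {t : ℝ} (ht : 0 < t) :
    ∫⁻ x in {x | g x ≤ t}, f x =
      ENNReal.ofReal (t ^ p) * (ENNReal.ofReal t * ∫⁻ x in ball g, f x) := by
  have hm : ∀ s : ℝ, MeasurableSet {x | g x ≤ s} := fun s =>
    (hg.compact_le s).isClosed.measurableSet
  have hB : ball g = {x | g x ≤ 1} := rfl
  rw [← lintegral_indicator (hm t), lintegral_scale (hf.indicator (hm t)) ht, Fintype.card_fin,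
    ← lintegral_const_mul _ hf, hB, ← lintegral_indicator (hm 1)]
  congr 1
  refine lintegral_congr fun x => ?_
  by_cases h : g x ≤ 1
  · have h1 : g (t • x) ≤ t := by
      rw [hg.smul t ht.le]
      nlinarith
    rw [indicator_of_mem (show t • x ∈ {x | g x ≤ t} from h1),
      indicator_of_mem (show x ∈ {x | g x ≤ 1} from h), hfs t ht]
  · have h1 : ¬ g (t • x) ≤ t := by
      rw [hg.smul t ht.le]
      intro h2
      apply h
      by_contra h3
      push Not at h3
      nlinarith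
    rw [indicator_of_notMem (show t • x ∉ {x | g x ≤ t} from h1),
      indicator_of_notMem (show x ∉ {x | g x ≤ 1} from h)]

/-- the two halves have the same radial distribution -/
theorem bal_map {g : (Fin p → ℝ) → ℝ} (hg : IsG g)
    {a : Fin p → ℝ} (hb : ∫⁻ x in ball g, ENNReal.ofReal (∑ i, a i * x i) =
      ∫⁻ x in ball g, ENNReal.ofReal (-∑ i, a i * x i)) :
    (volume.withDensity (fun x : Fin p → ℝ => ENNReal.ofReal (∑ i, a i * x i))).map g =
      (volume.withDensity (fun x : Fin p → ℝ => ENNReal.ofReal (-∑ i, a i * x i))).map g := by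
  have hm : ∀ s : ℝ, MeasurableSet {x | g x ≤ s} := fun s =>
    (hg.compact_le s).isClosed.measurableSet
  -- general facts for `a` and `-a`
  have key : ∀ b : Fin p → ℝ, (∀ t : ℝ,
      ((volume.withDensity (fun x : Fin p → ℝ => ENNReal.ofReal (∑ i, b i * x i))).map g)
        (Iic t) = ∫⁻ x in {x | g x ≤ t}, ENNReal.ofReal (∑ i, b i * x i)) := by
    intro b t
    rw [Measure.map_apply hg.cont.measurable measurableSet_Iic]
    have : g ⁻¹' Iic t = {x | g x ≤ t} := rfl
    rw [this, withDensity_apply _ (hm t)]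
  have kfin : ∀ b : Fin p → ℝ, ∀ t : ℝ,
      ∫⁻ x in {x | g x ≤ t}, ENNReal.ofReal (∑ i, b i * x i) ≠ ∞ := by
    intro b t
    have hc : Continuous fun x : Fin p → ℝ => ∑ i, b i * x i := by fun_prop
    have := (hc.continuousOn (s := {x | g x ≤ t})).integrableOn_compact (hg.compact_le t)
      (μ := volume)
    exact this.lintegral_lt_top.ne
  have kpos : ∀ b : Fin p → ℝ, ∀ t : ℝ, 0 < t →
      ∫⁻ x in {x | g x ≤ t}, ENNReal.ofReal (∑ i, b i * x i) =
        ENNReal.ofReal (t ^ p) * (ENNReal.ofReal t *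
          ∫⁻ x in ball g, ENNReal.ofReal (∑ i, b i * x i)) := by
    intro b t ht
    refine setl_scale hg (by fun_prop) (fun r hr x => ?_) ht
    rw [← ENNReal.ofReal_mul hr.le]
    congr 1
    rw [Finset.mul_sum]
    refine Finset.sum_congr rfl fun i _ => ?_
    simp only [Pi.smul_apply, smul_eq_mul]
    ring
  have kneg : ∀ b : Fin p → ℝ, ∀ t : ℝ, t ≤ 0 →
      ∫⁻ x in {x | g x ≤ t}, ENNReal.ofReal (∑ i, b i * x i) = 0 := by
    intro b t ht
    rw [← lintegral_indicator (hm t), lintegral_eq_zero_iff (Measurable.indicator (by fun_prop)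
      (hm t))]
    refine Filter.Eventually.of_forall fun x => ?_
    show indicator {x | g x ≤ t} (fun x => ENNReal.ofReal (∑ i, b i * x i)) x = 0
    by_cases h : g x ≤ t
    · rw [indicator_of_mem (show x ∈ {x | g x ≤ t} from h), (hg.le_zero_iff x).1 (h.trans ht)]
      simp
    · rw [indicator_of_notMem (show x ∉ {x | g x ≤ t} from h)]
  have hneg : (fun x : Fin p → ℝ => ENNReal.ofReal (-∑ i, a i * x i)) =
      fun x : Fin p → ℝ => ENNReal.ofReal (∑ i, (-a) i * x i) := by
    funext x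
    congr 1
    rw [← Finset.sum_neg_distrib]
    refine Finset.sum_congr rfl fun i _ => ?_
    simp
  have hb' : ∫⁻ x in ball g, ENNReal.ofReal (∑ i, a i * x i) =
      ∫⁻ x in ball g, ENNReal.ofReal (∑ i, (-a) i * x i) := by
    rw [hb]
    exact lintegral_congr fun x => congrFun hneg x
  rw [hneg]
  have hI : ∀ t : ℝ,
      ((volume.withDensity (fun x : Fin p → ℝ => ENNReal.ofReal (∑ i, a i * x i))).map g) (Iic t) =
      ((volume.withDensity (fun x : Fin p → ℝ => ENNReal.ofReal (∑ i, (-a) i * x i))).map g)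
        (Iic t) := by
    intro t
    rw [key, key]
    rcases lt_or_ge 0 t with h | h
    · rw [kpos a t h, kpos (-a) t h, hb']
    · rw [kneg a t h, kneg (-a) t h]
  have hIf : ∀ b : Fin p → ℝ, ∀ t : ℝ,
      ((volume.withDensity (fun x : Fin p → ℝ => ENNReal.ofReal (∑ i, b i * x i))).map g) (Iic t)
        ≠ ∞ := by
    intro b t
    rw [key]
    exact kfin b t
  refine Measure.ext_of_Ioc' _ _ (fun c d _ => ?_) fun c d hcd => ?_
  · exact ne_top_of_le_ne_top (hIf a d) (measure_mono Ioc_subset_Iic_self)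
  · rw [← Iic_sdiff_Iic, measure_sdiff (Iic_subset_Iic.2 hcd.le) nullMeasurableSet_Iic
      (hIf a c), measure_sdiff (Iic_subset_Iic.2 hcd.le) nullMeasurableSet_Iic (hIf (-a) c),
      hI, hI]

theorem bal_fb (e : Fin n ≃ Fin q ⊕ Fin p) {H : Set ((Fin q → ℝ) × ℝ)} (hH : HG H)
    {g : (Fin p → ℝ) → ℝ} (hg : IsG g)
    (hb : ∀ a : Fin p → ℝ, ∫⁻ x in ball g, ENNReal.ofReal (∑ i, a i * x i) =
      ∫⁻ x in ball g, ENNReal.ofReal (-∑ i, a i * x i)) {w : Fin n → ℝ} (hw : yp e w = 0) :
    ∫⁻ x in fb e H g, ENNReal.ofReal (∑ i, w i * x i) =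
      ∫⁻ x in fb e H g, ENNReal.ofReal (-∑ i, w i * x i) := by
  have hF : MeasurableSet (fb e H g) :=
    (Vale.Agent.P254.H242.compact_fb e hH hg).isClosed.measurableSet
  have hS : ∀ η : Fin q → ℝ, MeasurableSet {r : ℝ | (η, r) ∈ H} := fun η =>
    (hH.cpt.isClosed.preimage (by fun_prop : Continuous fun r : ℝ => (η, r))).measurableSet
  have hsum : ∀ (η : Fin q → ℝ) (ξ : Fin p → ℝ), ∑ i, w i * (sp e (η, ξ)) i =
      ∑ j, xp e w j * ξ j := by
    intro η ξ
    rw [sum_split e]
    have h1 : ∑ j, w (e.symm (Sum.inl j)) * (sp e (η, ξ)) (e.symm (Sum.inl j)) = 0 := by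
      refine Finset.sum_eq_zero fun j _ => ?_
      have : w (e.symm (Sum.inl j)) = 0 := congrFun hw j
      rw [this, zero_mul]
    rw [h1, zero_add]
    refine Finset.sum_congr rfl fun j _ => ?_
    have : (sp e (η, ξ)) (e.symm (Sum.inr j)) = ξ j := by
      have := congrFun (xp_sp e (η, ξ)) j
      exact this
    rw [this]
    rfl
  have hmem : ∀ (η : Fin q → ℝ) (ξ : Fin p → ℝ), sp e (η, ξ) ∈ fb e H g ↔ (η, g ξ) ∈ H := by
    intro η ξ
    show (yp e (sp e (η, ξ)), g (xp e (sp e (η, ξ)))) ∈ H ↔ _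
    rw [yp_sp, xp_sp]
  have main : ∀ (F : ℝ → ℝ≥0∞), Measurable F →
      ∫⁻ x in fb e H g, F (∑ i, w i * x i) = ∫⁻ η : Fin q → ℝ,
        ((volume.withDensity (fun x : Fin p → ℝ => F (∑ i, xp e w i * x i))).map g)
          {r : ℝ | (η, r) ∈ H} := by
    intro F hFm
    rw [← lintegral_indicator hF, lintegral_sp e (Measurable.indicator (by fun_prop) hF)]
    refine lintegral_congr fun η => ?_
    have hpre : MeasurableSet (g ⁻¹' {r : ℝ | (η, r) ∈ H}) := hg.cont.measurable (hS η)
    rw [Measure.map_apply hg.cont.measurable (hS η), withDensity_apply _ hpre,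
      ← lintegral_indicator hpre]
    refine lintegral_congr fun ξ => ?_
    by_cases h : (η, g ξ) ∈ H
    · rw [indicator_of_mem ((hmem η ξ).2 h),
        indicator_of_mem (show ξ ∈ g ⁻¹' {r : ℝ | (η, r) ∈ H} from h), hsum]
    · rw [indicator_of_notMem (fun h' => h ((hmem η ξ).1 h')),
        indicator_of_notMem (show ξ ∉ g ⁻¹' {r : ℝ | (η, r) ∈ H} from h)]
  rw [main (fun t => ENNReal.ofReal t) (by fun_prop),
    main (fun t => ENNReal.ofReal (-t)) (by fun_prop)]
  rw [bal_map hg (hb (xp e w))]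

end Vale.Agent.P248.H432.V5
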