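import Vale.Agent.P248.H432.V5.SBal
import Vale.Agent.P248.H432.PolarLaw
import Vale.Agent.P248.H917.Fib

/-! P248: reduction to a centre in the base, for fibres with Santaló point `0`. -/

set_option linter.unusedSectionVars false

open MeasureTheory Set
open scoped ENNReal Topology Pointwise

namespace Vale.Agent.P248.H432.V5

open Vale.Agent.P254.US (IsG ball isG_gauge)
open Vale.Agent.P254.H242 (yp xp sp fb HG HH)
open Vale.Agent.P248.H917 (Bd P0 HP polar_fb Nb nb_of_int int_of_nb hg_HP P0_body)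

section dir
variable {ι : Type*} [Fintype ι] [DecidableEq ι]

/-- If the centroid of `K` is the origin, then the origin is the Santaló point of the polar. -/
theorem santalo_dir {K : Set (ι → ℝ)} (hK : CB K) (h0 : (0 : ι → ℝ) ∈ interior K)
    {w : ι → ℝ} (hg : ∫⁻ x in K, ENNReal.ofReal (∑ i, w i * x i) =
      ∫⁻ x in K, ENNReal.ofReal (-∑ i, w i * x i))
    (hw : w ∈ polarP K 0) : volume K ≤ volume (polarP (polarP K 0) w) := by
  have hL := hK.polar h0
  have hLn : (polarP K 0).Nonempty := ⟨w, hw⟩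
  have h0L : (0 : ι → ℝ) ∈ polarP K 0 := interior_subset
    (mem_interior_iff_mem_nhds.2 (polarP_mem_nhds hK.cpt.isBounded 0))
  have hbi := bipolar hK.cpt.isClosed hK.cvx (interior_subset h0)
  have hgc := hs_continuous hL.cpt hLn 0
  have hKe : {x | hs (polarP K 0) 0 x ≤ 1} = K := by
    rw [← polarP_eq hL.cpt hLn, hbi]
  have e0 := EF_eq hL.cpt h0L
  rw [hbi] at e0
  have e1 := EF_eq hL.cpt hw
  suffices h : EF (polarP K 0) 0 ≤ EF (polarP K 0) w by
    rw [e0, e1] at h
    exact (ENNReal.mul_le_mul_iff_right (by exact_mod_cast (Nat.factorial_pos _).ne')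
      (ENNReal.natCast_ne_top _)).1 h
  set φ : (ι → ℝ) → ℝ := fun x => ∑ i, w i * x i with hφ
  have hφc : Continuous φ := by rw [hφ]; fun_prop
  have hφs : ∀ r : ℝ, ∀ x, φ (r • x) = r * φ x := by
    intro r x
    rw [hφ]
    simp only [Pi.smul_apply, smul_eq_mul]
    rw [Finset.mul_sum]
    exact Finset.sum_congr rfl fun i _ => by ring
  have p1 := laplace_weight hgc.measurable (hs_nonneg hL.cpt h0L)
    (fun r hr x => hs_smul hL.cpt hLn 0 x hr.le) (ψ := fun x => ENNReal.ofReal (φ x))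
    (by fun_prop) (fun r hr x => by rw [hφs, ENNReal.ofReal_mul hr.le])
  have p2 := laplace_weight hgc.measurable (hs_nonneg hL.cpt h0L)
    (fun r hr x => hs_smul hL.cpt hLn 0 x hr.le) (ψ := fun x => ENNReal.ofReal (-φ x))
    (by fun_prop) (fun r hr x => by
      rw [hφs, show -(r * φ x) = r * -φ x by ring, ENNReal.ofReal_mul hr.le])
  rw [hKe] at p1 p2
  have p3 : ∫⁻ x, ENNReal.ofReal (Real.exp (-(hs (polarP K 0) 0 x))) * ENNReal.ofReal (φ x) =
      ∫⁻ x, ENNReal.ofReal (Real.exp (-(hs (polarP K 0) 0 x))) * ENNReal.ofReal (-φ x) := by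
    rw [p1, p2, hg]
  have hfin : ∫⁻ x, ENNReal.ofReal (Real.exp (-(hs (polarP K 0) 0 x))) *
      ENNReal.ofReal (-φ x) ≠ ∞ := by
    rw [p2]
    refine ENNReal.mul_ne_top (ENNReal.natCast_ne_top _) ?_
    obtain ⟨C, hC⟩ := (hK.cpt.image hφc.neg).isBounded.bddAbove
    refine ne_top_of_le_ne_top (ENNReal.mul_ne_top (ENNReal.ofReal_ne_top (r := C))
      hK.vol_ne_top) ?_
    rw [← setLIntegral_const]
    refine setLIntegral_mono measurable_const fun x hx => ?_
    exact ENNReal.ofReal_le_ofReal (hC ⟨x, hx, rfl⟩)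
  have p4 : EF (polarP K 0) 0 +
      ∫⁻ x, ENNReal.ofReal (Real.exp (-(hs (polarP K 0) 0 x))) * ENNReal.ofReal (φ x) ≤
      EF (polarP K 0) w +
      ∫⁻ x, ENNReal.ofReal (Real.exp (-(hs (polarP K 0) 0 x))) * ENNReal.ofReal (-φ x) := by
    unfold EF
    rw [← lintegral_add_left (by fun_prop), ← lintegral_add_left
      (by have := hs_continuous hL.cpt hLn w; fun_prop)]
    refine lintegral_mono fun x => ?_
    have e2 : hs (polarP K 0) w x = hs (polarP K 0) 0 x - φ x := by
      rw [hs_shift hL.cpt hLn w 0 x]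
      have : ∑ i, ((0 : ι → ℝ) i - w i) * x i = -φ x := by
        rw [hφ]
        simp only [Pi.zero_apply, zero_sub, neg_mul, Finset.sum_neg_distrib]
      rw [this]
      ring
    set E := Real.exp (-(hs (polarP K 0) 0 x)) with hE
    have hE0 : 0 < E := Real.exp_pos _
    have e3 : Real.exp (-(hs (polarP K 0) w x)) = E * Real.exp (φ x) := by
      rw [e2, hE, ← Real.exp_add]
      congr 1
      ring
    simp only
    rw [e3, ← ENNReal.ofReal_mul hE0.le, ← ENNReal.ofReal_mul hE0.le]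
    have h5 := Real.add_one_le_exp (φ x)
    rcases le_total 0 (φ x) with h6 | h6
    · have e4 : E * -φ x ≤ 0 := by nlinarith
      rw [ENNReal.ofReal_of_nonpos e4, add_zero, ← ENNReal.ofReal_add hE0.le (by positivity)]
      exact ENNReal.ofReal_le_ofReal (by nlinarith)
    · have e4 : E * φ x ≤ 0 := by nlinarith
      rw [ENNReal.ofReal_of_nonpos e4, add_zero, ← ENNReal.ofReal_add (by positivity)
        (by nlinarith)]
      exact ENNReal.ofReal_le_ofReal (by nlinarith)
  rw [p3] at p4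
  exact (ENNReal.add_le_add_iff_right hfin).1 p4

end dir

variable {n q p : ℕ}

/-- translates -/
theorem polarP_sub (S : Set (Fin n → ℝ)) (z w : Fin n → ℝ) :
    polarP {x | x + z ∈ S} w = polarP S (z + w) := by
  ext y
  simp only [polarP, mem_ofPred_eq]
  constructor
  · intro h x hx
    have h1 := h (x - z) (by rwa [sub_add_cancel])
    refine le_trans (le_of_eq ?_) h1
    refine Finset.sum_congr rfl fun i _ => ?_
    simp only [Pi.sub_apply, Pi.add_apply]
    ring
  · intro h x hx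
    have h1 := h (x + z) hx
    refine le_trans (le_of_eq ?_) h1
    refine Finset.sum_congr rfl fun i _ => ?_
    simp only [Pi.add_apply]
    ring

theorem nb_of_interior (e : Fin n ≃ Fin q ⊕ Fin p) {H : Set ((Fin q → ℝ) × ℝ)} (hH : HG H)
    (hp : 1 ≤ p) {g : (Fin p → ℝ) → ℝ} (hg : IsG g) {z : Fin n → ℝ}
    (hz : z ∈ interior (fb e H g)) : Nb H (yp e z) := by
  obtain ⟨ε, hε, hball⟩ := Metric.mem_nhds_iff.1 (mem_interior_iff_mem_nhds.1 hz)
  obtain ⟨x', hx'0, hx'⟩ : ∃ x' : Fin p → ℝ, x' ≠ 0 ∧ ‖x' - xp e z‖ < ε := by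
    by_cases h : xp e z = 0
    · refine ⟨fun _ => ε / 2, fun h1 => ?_, ?_⟩
      · have := congrFun h1 ⟨0, hp⟩
        simp only [Pi.zero_apply] at this
        linarith
      · rw [h, sub_zero]
        have : Nonempty (Fin p) := ⟨⟨0, hp⟩⟩
        rw [pi_norm_const, Real.norm_eq_abs, abs_of_pos (by positivity)]
        linarith
    · exact ⟨xp e z, h, by simpa using hε⟩
  have hgx : 0 < g x' := by
    obtain ⟨c, hc, hcg⟩ := hg.coer
    have h1 : 0 < ‖x'‖ := norm_pos_iff.2 hx'0
    exact (mul_pos hc h1).trans_le (hcg x')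
  have hin : ∀ y : Fin q → ℝ, ‖y - yp e z‖ < ε → (y, g x') ∈ H := by
    intro y hy
    have h1 : sp e (y, x') ∈ fb e H g := by
      apply hball
      rw [mem_ball_iff_norm]
      refine (pi_norm_lt_iff hε).2 fun i => ?_
      obtain ⟨s, rfl⟩ := e.symm.surjective i
      rcases s with j | j
      · rw [Pi.sub_apply, Vale.Agent.P254.H242.sp_inl]
        exact (norm_le_pi_norm (y - yp e z) j).trans_lt hy
      · rw [Pi.sub_apply, Vale.Agent.P254.H242.sp_inr]
        exact (norm_le_pi_norm (x' - xp e z) j).trans_lt hx'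
    have h2 : (yp e (sp e (y, x')), g (xp e (sp e (y, x')))) ∈ H := h1
    rwa [Vale.Agent.P254.H242.yp_sp, Vale.Agent.P254.H242.xp_sp] at h2
  refine ⟨min (ε / 2) (g x'), by positivity, fun y r hy hr0 hr => ?_⟩
  exact hH.down _ _ _ (hin y ((hy.trans (min_le_left _ _)).trans_lt (by linarith))) hr0
    (hr.trans (min_le_right _ _))

/-- **reduction to a centre in the base** -/
theorem san_cent (e : Fin n ≃ Fin q ⊕ Fin p) {H : Set ((Fin q → ℝ) × ℝ)} (hH : HG H) (hp : 1 ≤ p)
    {W : Set (Fin p → ℝ)} (hW : Bd W) (h0 : (0 : Fin p → ℝ) ∈ interior W)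
    (hc : ∀ a : Fin p → ℝ, ∫⁻ x in P0 W, ENNReal.ofReal (∑ i, a i * x i) =
      ∫⁻ x in P0 W, ENNReal.ofReal (-∑ i, a i * x i)) {z : Fin n → ℝ}
    (hS : Bd (fb e H (gauge W))) (hz : z ∈ interior (fb e H (gauge W))) :
    ∃ z' ∈ interior (fb e H (gauge W)), xp e z' = 0 ∧ yp e z' = yp e z ∧
      H917.vp (fb e H (gauge W)) z' ≤ H917.vp (fb e H (gauge W)) z := by
  obtain ⟨hg, hb⟩ := isG_gauge hW h0
  obtain ⟨hP, hP0⟩ := P0_body hW h0
  obtain ⟨hg', hb'⟩ := isG_gauge hP hP0
  have hnb := nb_of_interior e hH hp hg hz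
  set S := fb e H (gauge W) with hSd
  obtain ⟨z', hz'⟩ : ∃ z' : Fin n → ℝ, z' = sp e (yp e z, 0) := ⟨_, rfl⟩
  have hy' : yp e z' = yp e z := by rw [hz', Vale.Agent.P254.H242.yp_sp]
  have hx' : xp e z' = 0 := by rw [hz', Vale.Agent.P254.H242.xp_sp]
  have hzi : z' ∈ interior S := int_of_nb e hg hx' (by rw [hy']; exact hnb)
  refine ⟨z', hzi, hx', hy', ?_⟩
  have hCB : CB S := ⟨hS.2.1, hS.1, hS.2.2⟩
  have hM : CB (polarP S z') := hCB.polar hzi
  have hM0 : (0 : Fin n → ℝ) ∈ interior (polarP S z') :=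
    mem_interior_iff_mem_nhds.2 (polarP_mem_nhds hS.2.1.isBounded z')
  obtain ⟨w, hw⟩ : ∃ w : Fin n → ℝ, w = z - z' := ⟨_, rfl⟩
  have hwy : yp e w = 0 := by
    funext j
    have h1 := congrFun hy' j
    rw [hw]
    show z (e.symm (Sum.inl j)) - z' (e.symm (Sum.inl j)) = 0
    have h2 : z' (e.symm (Sum.inl j)) = z (e.symm (Sum.inl j)) := h1
    rw [h2, sub_self]
  have hbal : ∫⁻ x in polarP S z', ENNReal.ofReal (∑ i, w i * x i) =
      ∫⁻ x in polarP S z', ENNReal.ofReal (-∑ i, w i * x i) := by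
    rw [hSd, polar_fb e hH hW h0 hx', hy']
    refine bal_fb e (hg_HP hH hnb) hg' ?_ hwy
    rw [hb']
    exact hc
  -- the translate of `S`
  have e1 : polarP {x | x + z' ∈ S} 0 = polarP S z' := by
    rw [polarP_sub, add_zero]
  have hT : CB {x | x + z' ∈ S} := by
    refine ⟨?_, ?_, ?_⟩
    · exact (Homeomorph.addRight z').isCompact_preimage.2 hS.2.1
    · exact hS.1.translate_preimage_left z'
    · exact ⟨0, by
        have h5 := (Homeomorph.addRight z').preimage_interior S
        have h6 : (0 : Fin n → ℝ) ∈ (Homeomorph.addRight z') ⁻¹' interior S := by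
          show (0 : Fin n → ℝ) + z' ∈ interior S
          rwa [zero_add]
        rw [h5] at h6
        exact h6⟩
  have hT0 : (0 : Fin n → ℝ) ∈ {x | x + z' ∈ S} := by
    show (0 : Fin n → ℝ) + z' ∈ S
    rw [zero_add]
    exact interior_subset hzi
  have hbi := bipolar hT.cpt.isClosed hT.cvx hT0
  rw [e1] at hbi
  have hwM : w ∈ polarP (polarP S z') 0 := by
    rw [hbi]
    show w + z' ∈ S
    rw [hw, sub_add_cancel]
    exact interior_subset hz
  have h1 := santalo_dir hM hM0 hbal hwM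
  rw [hbi, polarP_sub, hw, add_sub_cancel] at h1
  unfold H917.vp
  refine mul_le_mul_of_nonneg_left (ENNReal.toReal_mono ?_ h1) ENNReal.toReal_nonneg
  exact (polarP_isBounded hz).measure_lt_top.ne

end Vale.Agent.P248.H432.V5
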