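import Vale.Agent.P248.H432.V5.Defs
import Vale.Agent.P248.H432.V5.Line
import Vale.Agent.P248.H432.V4.Sym
import Vale.Agent.P248.H432.Near

/-! P248: Q1's bound for the class `SymGenerated`. -/

set_option linter.unusedSectionVars false

open MeasureTheory Set
open scoped ENNReal

namespace Vale.Agent.P248.H432.V5

open Vale.Agent.P248.H432.Q
open Vale.Agent.P248.H917 (IsSym CentrallyFibredBy IsExchange law_q1 exch_ge)

variable {n : ℕ}

open Vale.Agent.P248.H432.V4 (bound_mix uncond_bound cube_plane low_bound)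

theorem volumeProduct_ne_zero {K : Set (E n)} (hK : IsConvexBody K) : volumeProduct K ≠ 0 := by
  have h1 := near_sharp175 hK
  have h2 : 0 < Real.exp (-(7 / 20 * ((n : ℝ) + 1))) *
      (((n : ℝ) + 1) ^ (n + 1) / (n.factorial : ℝ) ^ 2) := by positivity
  exact ((ENNReal.ofReal_pos.2 h2).trans_le h1).ne'

/-- the exchange of a fibre for one with a bigger volume product -/
theorem exch_mono {q p n : ℕ} (hp : 1 ≤ p) {U W : Set (E p)} {K K' : Set (E n)}
    (hU : IsConvexBody U) (hsU : IsSantalo U) (hW : IsConvexBody W) (hsW : IsSantalo W)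
    (hUW : volumeProduct W ≤ volumeProduct U) (hK : IsConvexBody K)
    (hX : IsExchange q U W K K') : volumeProduct K' ≤ volumeProduct K := by
  obtain ⟨-, h⟩ := exch_sant hp hU hsU hW hsW hK hX
  have h1 : volumeProduct W * volumeProduct K' ≤ volumeProduct W * volumeProduct K := by
    calc volumeProduct W * volumeProduct K' ≤ volumeProduct U * volumeProduct K' :=
          mul_le_mul' hUW le_rfl
      _ = volumeProduct K' * volumeProduct U := mul_comm _ _
      _ = volumeProduct K * volumeProduct W := h.symm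
      _ = _ := mul_comm _ _
  exact (ENNReal.mul_le_mul_iff_right (volumeProduct_ne_zero hW) (volumeProduct_ne_top hW)).1 h1

theorem symGenerated {K : Set (E n)} (h : SymGenerated n K) : IsConvexBody K ∧
    ENNReal.ofReal (4 ^ n / (n.factorial : ℝ)) ≤ volumeProduct K := by
  induction h with
  | low hn hK => exact ⟨hK, low_bound hn hK⟩
  | uncond hK hU => exact ⟨hK, uncond_bound hK hU⟩
  | cube hK hC => exact ⟨hK, cube_top hK hC⟩
  | @rot n m K T i hK hT hc =>
    obtain ⟨p, b, hT⟩ := hT
    exact ⟨hK, (q1_rot (T := fun _ => T i) hK ⟨p, b, fun _ => hT i⟩ hc).le⟩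
  | @prod m n N K L M _ _ hj ihK ihL =>
    replace hj := hj.isProduct
    refine ⟨hj.body ihK.1 ihL.1, ?_⟩
    rw [hj.volumeProduct_eq ihK.1 ihL.1]
    obtain rfl := hj.1
    calc ENNReal.ofReal (4 ^ (m + n) / ((m + n).factorial : ℝ))
        = ENNReal.ofReal ((m.factorial : ℝ) * n.factorial / (m + n).factorial) *
            (ENNReal.ofReal (4 ^ m / (m.factorial : ℝ)) *
              ENNReal.ofReal (4 ^ n / (n.factorial : ℝ))) := by
          rw [← ENNReal.ofReal_mul (by positivity), ← ENNReal.ofReal_mul (by positivity)]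
          congr 1
          have h1 : (0 : ℝ) < m.factorial := by positivity
          have h2 : (0 : ℝ) < n.factorial := by positivity
          rw [pow_add]
          field_simp
      _ ≤ _ := by
          gcongr
          · exact ihK.2
          · exact ihL.2
  | polar _ ih =>
    exact ⟨polarAt_body ih.1 (centroid_mem ih.1), ih.2.trans (volumeProduct_le_polar ih.1)⟩
  | glue _ _ hcv hg ih₁ ih₂ =>
    obtain ⟨h1, h2, -⟩ := hg.law hcv ih₁.1 ih₂.1
    exact ⟨h1, bound_mix ih₁.2 ih₂.2 h2⟩
  | fibreSum _ _ hg ih₁ ih₂ =>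
    obtain ⟨h1, h2, -⟩ := hg.law ih₁.1 ih₂.1
    exact ⟨h1, bound_mix ih₁.2 ih₂.2 h2⟩
  | @fibred q p n U K hq _ hUs hK hKs hF ih =>
    refine ⟨hK, ?_⟩
    rcases Nat.eq_zero_or_pos p with rfl | hp
    · have hn : q + 0 = n := hF.1
      rcases Nat.lt_or_ge n 2 with h2 | h2
      · exact low_bound (by omega) hK
      · obtain rfl : 2 = n := by omega
        exact cube_top hK (cube_plane hKs)
    · have h1 := law_q1 hq hp ih.1 hUs hK hKs hF
      have hc : ENNReal.ofReal (4 ^ p / (p.factorial : ℝ)) ≠ 0 := by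
        rw [Ne, ENNReal.ofReal_eq_zero, not_le]
        positivity
      have h2 : ENNReal.ofReal (4 ^ p / (p.factorial : ℝ)) *
          ENNReal.ofReal (4 ^ n / (n.factorial : ℝ)) ≤
          ENNReal.ofReal (4 ^ p / (p.factorial : ℝ)) * volumeProduct K := by
        refine le_trans ?_ h1
        rw [mul_comm]
        exact mul_le_mul' le_rfl ih.2
      exact (ENNReal.mul_le_mul_iff_right hc ENNReal.ofReal_ne_top).1 h2
  | exch hp hU hsU hW hsW hUW _ hK hX ih =>
    exact ⟨hK, ih.2.trans (exch_mono hp hU hsU hW hsW hUW hK hX)⟩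

end Vale.Agent.P248.H432.V5
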